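import Vale.Agent.P269.Vir.Pt
import Vale.Agent.P269.Gen.Defs
import Vale.Agent.P269.Base.Act

/-!
# The linearised equations in a chart: definitions and the pointwise dictionary
-/

set_option linter.unusedSectionVars false

namespace Vale.Agent.P269

open Set Function Topology Filter MvPolynomial Vir Base

variable {S Λ R J K : Type} [Fintype S] [Fintype Λ] [Fintype R] [Fintype J] [Fintype K]

theorem Vir.hasDerivAt_eval (p : MvPolynomial J ℂ) (y v : J → ℂ) :
    HasDerivAt (fun ε : ℂ => eval (fun j => y j + ε * v j) p) (∑ j, eval y (pderiv j p) * v j) 0 := by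
  classical
  induction p using MvPolynomial.induction_on with
  | C a => simpa using hasDerivAt_const (0 : ℂ) a
  | add p q a b => simpa [add_mul, Finset.sum_add_distrib] using a.fun_add b
  | mul_X p i a =>
    have := a.fun_mul (((hasDerivAt_id' (0 : ℂ)).mul_const (v i)).const_add (y i))
    simp only [zero_mul, add_zero, one_mul] at this
    simp only [map_mul, eval_X, pderiv_mul, map_add, pderiv_X, add_mul, Finset.sum_add_distrib]
    refine this.congr_deriv (congrArg₂ (· + ·) ?_ ?_)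
    · rw [Finset.sum_mul]
      exact Finset.sum_congr rfl fun j _ => mul_right_comm _ _ _
    · rw [Finset.sum_eq_single i (fun j _ h => by simp [h.symm]) (by simp)]
      simp

namespace Fam

variable (F : Fam S Λ R J K)

/-- the values of the equations -/
noncomputable def eqn (z : (Λ → ℂ) × (J → ℂ)) (k : K) : ℂ := eval z.2 ((F.fib z.1).F k)

/-- the Jacobian matrix of the equations -/
noncomputable def jac (z : (Λ → ℂ) × (J → ℂ)) (k : K) (j : J) : ℂ :=
  eval z.2 (pderiv j ((F.fib z.1).F k))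

/-- the conditions on the parameters and the base fields -/
def bs : Set ((Λ → ℂ) × (J → ℂ)) := {z | z.1 ∈ F.B ∧ z ∈ F.E ∧ ∀ j ∈ F.zer, z.2 j = 0}

theorem mem_cone {z : (Λ → ℂ) × (J → ℂ)} : z ∈ F.cone ↔ z ∈ F.bs ∧ z ∈ F.U ∧ ∀ k, F.eqn z k = 0 :=
  ⟨fun h => ⟨⟨h.1, h.2.1.2⟩, h.2.1.1, h.2.2⟩, fun h => ⟨h.1.1, ⟨h.2.1, h.1.2⟩, h.2.2⟩⟩

/-- The equations `K₀` have independent differentials in the movable directions and cut out the
cone; the other equations are redundant. -/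
structure Reg (K₀ : Set K) : Prop where
  ind : ∀ z ∈ F.cone, ∀ c : K → ℂ, ∃ η : J → ℂ, (∀ j ∉ F.mov, η j = 0) ∧
    ∀ k ∈ K₀, ∑ j, F.jac z k j * η j = c k
  cut : ∀ z ∈ F.cone, ∀ᶠ z' in 𝓝 z, z' ∈ F.bs → (∀ k ∈ K₀, F.eqn z' k = 0) → ∀ k, F.eqn z' k = 0

variable {F}

theorem reg_univ (h : ∀ z ∈ F.cone, ∀ c : K → ℂ, ∃ η : J → ℂ, (∀ j ∉ F.mov, η j = 0) ∧
    ∀ k, ∑ j, F.jac z k j * η j = c k) : F.Reg univ :=
  ⟨fun z hz c => (h z hz c).imp fun _ a => ⟨a.1, fun k _ => a.2 k⟩,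
    fun _ _ => .of_forall fun _ _ a k => a k trivial⟩

theorem eval_fib (l : Λ → ℂ) (y : J → ℂ) (k : K) : eval y ((F.fib l).F k) =
    ∑ α ∈ (F.G k).support, eval l (coeff α (F.G k)) * ∏ j, y j ^ α j := by
  change eval y (MvPolynomial.map (eval l) (F.G k)) = _
  conv_lhs => rw [(F.G k).as_sum]
  simp only [map_sum, map_monomial, eval_monomial, Finsupp.prod_fintype _ _ fun _ => pow_zero _]

end Fam

namespace Ch

variable {ι : Type} [Fintype ι] [DecidableEq ι] {ch : Ch ι J} {ν κ : Type} [Fintype ν] [Fintype κ]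

variable (ch) in
/-- the tests of the equations -/
abbrev Zt : Type := ∀ i, (Fin (ch.M i) → ℂ) →L[ℂ] ℂ

variable (ch) in
/-- the tests of the fields -/
abbrev Th (j : J) : Type := Tens ch.M (ch.b j)

variable (ch) in
/-- All framed degrees are nonzero, and one of them cuts out the curve. -/
structure Cuts : Prop where
  ne : ∀ l, ch.a l ≠ 0
  cut : ∃ l, ∀ i, 4 ≤ ch.a l i

variable (ch) in
/-- the Euler characteristic of `O(c)` -/
def eu (c : ι → ℤ) : ℤ := ∑ i, c i * ch.m i + 1 - ch.g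

/-- evaluation at a point of the curve -/
def evZ (z : ch.Pt) : ch.P K →ₗ[ℂ] Fib ch.Th K ch.Zt where
  toFun f := (fun j => f.1 j z, fun k => f.2 k z)
  map_add' _ _ := rfl
  map_smul' _ _ := rfl

/-- the values of the thickened fields at a point of the curve -/
noncomputable def yv {ν' : Type} [Fintype ν'] (x : ch.W ν') (z : ch.Pt) (j : J) :
    ch.Th j →ₗ[ℂ] ℂ := (z.2 (some j) ∘L x.X j).toLinearMap

/-- the values of the tests -/
noncomputable def tvZ (c : V ch.M) (j : J) : ch.Th j →ₗ[ℂ] ℂ := (evL (ch.b j) c).toLinearMap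

/-- the tests of the fields that occur in the equations -/
noncomputable def pwT (ζ : ch.Zt) (j : J) : ch.Th j := pw ζ (ch.b j)

theorem val_pw (ζ : ch.Zt) (b : ι → ℕ) (c : V ch.M) : val (pw ζ b) c = ∏ i, ζ i (c i) ^ b i := by
  change ∏ s : Σ i, Fin (b i), ζ s.1 (c s.1) = _
  rw [Fintype.prod_sigma]
  exact Finset.prod_congr rfl fun i _ => Fin.prod_const (b i) (ζ i (c i))

/-- rescaling a point of the multicone -/
noncomputable def tz (t : ι → ℂ) (z : ch.Pt) : ch.Pt := (t • z.1, fun l => chr (ch.a l) t • z.2 l)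

variable (ch) in
/-- polynomials of degree `a` in the tests of the equations -/
def PiZ (a : ι → ℕ) : Submodule ℂ (ch.Zt → ℂ) :=
  Submodule.span ℂ (range fun (v : ∀ s : Σ i, Fin (a i), Fin (ch.M s.1) → ℂ) (ζ : ch.Zt) =>
    ∏ s, ζ s.1 (v s))

variable (F : Fam S Λ R J K) (e : K → ι → ℕ)

/-- the degree of the equation `k` -/
def _root_.Vale.Agent.P269.Fam.dk (ℓ : R → ι → ℤ) (k : K) : ι → ℤ := fun i => ∑ r, F.χ k r * ℓ r i

variable (ch) in
/-- `ℓ r` is the degree of the line bundle of the factor `r` of the torus -/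
def HasWt (ℓ : R → ι → ℤ) : Prop :=
  ∀ j i, (ch.a (some j) i : ℤ) - ch.b j i = ∑ r, F.w j r * ℓ r i

/-- the homogenised equation as a polynomial -/
noncomputable def hp (l : Λ → ℂ) (k : K) (ζ : ch.Zt) (c : V ch.M) : MvPolynomial J ℂ :=
  ∑ α ∈ (F.G k).support, monomial α
    (eval l (coeff α (F.G k)) * ∏ i, ζ i (c i) ^ (e k i - ∑ j, α j * ch.b j i))

theorem eval_hp (l : Λ → ℂ) (k : K) (ζ : ch.Zt) (c : V ch.M) (y : J → ℂ) :
    eval y (hp F e l k ζ c) = ∑ α ∈ (F.G k).support, eval l (coeff α (F.G k)) * (∏ j, y j ^ α j) *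
      ∏ i, ζ i (c i) ^ (e k i - ∑ j, α j * ch.b j i) := by
  simp only [hp, map_sum, eval_monomial, Finsupp.prod_fintype _ _ fun _ => pow_zero _,
    mul_right_comm]

theorem hmg_fib (l : Λ → ℂ) (k : K) (ζ : ch.Zt) (c : V ch.M) (y : J → ℂ) :
    hmg (F.fib l) e k ζ c y = eval y (hp F e l k ζ c) := by
  rw [eval_hp, hmg]
  refine (Finset.sum_congr rfl fun α _ => ?_).trans
    (Finset.sum_subset (support_map_subset _ _) fun α _ h => ?_)
  · rw [← coeff_map]; rfl
  · have := notMem_support_iff.1 h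
    rw [Fam.fib, coeff_map] at this
    rw [this, zero_mul, zero_mul]

/-- the linearised equations at the point `z` of the curve `x` -/
noncomputable def pd (x : ch.WF ν κ Λ) (z : ch.Pt) : PD K ch.Zt ch.Th where
  tv := tvZ z.1
  D k ζ j := eval (fun j => yv x.2 z j (pwT ζ j)) (pderiv j (hp F e x.1 k ζ z.1))
  tot k ζ := ∏ i, ζ i (z.1 i) ^ e k i

/-- the functions vanishing on the curve -/
noncomputable def vanM (x : ch.WF ν κ Λ) : Submodule ℂ (ch.P K) :=
  ch.polF F e ⊓ ⨅ z ∈ gr x.2, LinearMap.ker (evZ z)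

/-- the obstruction space -/
noncomputable def obsM (x : ch.WF ν κ Λ) : Submodule ℂ (ch.P K) :=
  ch.polF F e ⊓ ⨅ z ∈ gr x.2, ((pd F e x z).Im pwT F.mov).comap (evZ z)

open Classical in
variable (ch) in
/-- the rank of the obstruction bundle; `ℓ` are the degrees of the line bundles of the torus -/
noncomputable def rk (ℓ : R → ι → ℤ) (K₀ : Set K) : ℤ :=
  ∑ j with j ∈ F.mov, (Module.finrank ℂ (ch.Th j) * ch.eu (fun i => ch.a (some j) i) -
    ch.eu fun i => ch.a (some j) i - ch.b j i) +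
  ∑ k with k ∈ K₀, ch.eu (F.dk ℓ k)

variable {F e} {x : ch.WF ν κ Λ} {f : ch.P K} {z : ch.Pt}

theorem mem_vanM : f ∈ vanM F e x ↔ f ∈ ch.polF F e ∧ ∀ z ∈ gr x.2, evZ z f = 0 := by
  simp only [vanM, Submodule.mem_inf, Submodule.mem_iInf, LinearMap.mem_ker]

theorem mem_obsM : f ∈ obsM F e x ↔
    f ∈ ch.polF F e ∧ ∀ z ∈ gr x.2, evZ z f ∈ (pd F e x z).Im pwT F.mov := by
  simp only [obsM, Submodule.mem_inf, Submodule.mem_iInf, Submodule.mem_comap]

theorem vanM_le_obsM : vanM F e x ≤ obsM F e x := fun _ h =>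
  mem_obsM.2 ⟨h.1, fun z hz => (mem_vanM.1 h).2 z hz ▸ zero_mem _⟩

theorem mem_vanF : f ∈ vanF F e x ↔ f ∈ vanM F e x :=
  (and_congr_right fun _ => forall₂_congr fun _ _ =>
    ⟨fun h => Prod.ext (_root_.funext h.1) (_root_.funext h.2),
      fun h => ⟨congrFun (congrArg Prod.fst h), congrFun (congrArg Prod.snd h)⟩⟩).trans mem_vanM.symm

theorem deriv_hmg (v : J → ℂ) (k : K) (ζ : ch.Zt) : deriv (fun ε : ℂ => hmg (F.fib x.1) e k ζ z.1
    fun j => z.2 (some j) (x.2.X j (pw ζ _)) + ε * v j) 0 = ∑ j, (pd F e x z).D k ζ j * v j := by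
  simp only [hmg_fib]
  exact (hasDerivAt_eval _ _ _).deriv

theorem mem_obsF : f ∈ obsF F e x ↔ f ∈ obsM F e x := by
  refine (and_congr_right fun _ => forall₂_congr fun z _ => ?_).trans mem_obsM.symm
  simp only [deriv_hmg]
  exact ⟨fun ⟨y, a, b, c⟩ => ⟨fun j => (y j).toLinearMap, fun j hj => congrArg ContinuousLinearMap.toLinearMap (a j hj),
    Prod.ext (funext₂ fun j m => (b j m).symm) (funext₂ fun k ζ => (c k ζ).symm)⟩,
    fun ⟨y, a, b⟩ => ⟨fun j => (y j).toContinuousLinearMap, fun j hj =>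
      (congrArg LinearMap.toContinuousLinearMap (a j hj : y j = 0)).trans (map_zero _),
      fun j m => (congrFun (congrFun (congrArg Prod.fst b) j) m).symm,
      fun k ζ => (congrFun (congrFun (congrArg Prod.snd b) k) ζ).symm⟩⟩

theorem evZ_sctF : evZ z (sctF F e x) = (fun j => kos (tvZ z.1 j) (yv x.2 z j),
    fun k ζ => eval (fun j => yv x.2 z j (pwT ζ j)) (hp F e x.1 k ζ z.1)) :=
  Prod.ext rfl (funext₂ fun _ _ => hmg_fib _ _ _ _ _ _ _)

theorem tvZ_pwT (c : V ch.M) (ζ : ch.Zt) (j : J) :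
    tvZ c j (pwT ζ j) = ∏ i, ζ i (c i) ^ ch.b j i := val_pw _ _ _

theorem tvZ_ne {c : V ch.M} (h : ∀ i, c i ≠ 0) (j : J) : ∃ m, tvZ (ch := ch) c j m ≠ 0 :=
  (exists_val_one h).imp fun _ a => a.trans_ne one_ne_zero

theorem exists_Zt {c : V ch.M} (h : ∀ i, c i ≠ 0) : ∃ ζ : ch.Zt, ∀ i, ζ i (c i) = 1 :=
  Classical.axiom_of_choice fun i => exists_dual_one (h i)

/-- on multiples of the tests the homogenised equation is the equation -/
theorem Fits.eval_hp (h : ch.Fits F e) (l : Λ → ℂ) (k : K) (ζ : ch.Zt) (c : V ch.M) (y : J → ℂ) :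
    eval (fun j => y j * tvZ c j (pwT ζ j)) (hp F e l k ζ c) =
      F.eqn (l, y) k * ∏ i, ζ i (c i) ^ e k i := by
  rw [Ch.eval_hp, Fam.eqn, Fam.eval_fib, Finset.sum_mul]
  refine Finset.sum_congr rfl fun α hα => ?_
  simp only [tvZ_pwT, mul_pow, Finset.prod_mul_distrib, mul_assoc, ← Finset.prod_pow, ← pow_mul]
  rw [Finset.prod_comm, ← Finset.prod_mul_distrib]
  congr 3
  funext i
  rw [Finset.prod_pow_eq_pow_sum, ← pow_add, Finset.sum_congr rfl fun j _ => mul_comm _ (α j),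
    Nat.add_sub_cancel' (h.le k α hα i)]

theorem Fits.rel (h : ch.Fits F e) {y : J → ℂ} (hy : ∀ j, yv x.2 z j = y j • tvZ z.1 j) :
    (pd F e x z).Rel pwT F.mov (F.jac (x.1, y)) := fun k ζ j _ => by
  classical
  have a := hasDerivAt_eval (hp F e x.1 k ζ z.1) (fun j => y j * tvZ z.1 j (pwT ζ j))
    fun i => (Pi.single j 1 : J → ℂ) i * tvZ z.1 i (pwT ζ i)
  simp only [← mul_assoc, ← add_mul, h.eval_hp] at a
  have b := a.unique ((hasDerivAt_eval ((F.fib x.1).F k) y (Pi.single j 1)).mul_const _)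
  rw [Finset.sum_eq_single j (fun i _ e => by simp [e]) (by simp),
    Finset.sum_eq_single j (fun i _ e => by simp [e]) (by simp)] at b
  simpa [pd, hy, Fam.jac] using b

/-- the points of `gr` of a solution -/
theorem exists_cone (hx : x ∈ ch.solF ν κ F) (hz : z ∈ gr x.2) :
    ∃ y, (x.1, y) ∈ F.cone ∧ ∀ j, yv x.2 z j = y j • tvZ z.1 j :=
  let ⟨y, a, b⟩ := hx.2.2 z hz
  ⟨y, ⟨hx.1.1, a⟩, fun j => LinearMap.ext (b j)⟩

end Ch

end Vale.Agent.P269
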