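import Vale.Agent.P269.Vir.Clo
import Vale.Agent.P269.Base.MainS
import Vale.Agent.P269.Base.Std
import Vale.Agent.P269.Gen.Num
import Vale.Agent.P269.Pt.Sel

set_option linter.all false

/-!
# The main stratum of a good chart; the virtual dimension
-/

namespace Vale.Agent.P269

open Set Function Topology Filter Module P291Z Orb Holo Base

variable {S Λ R J K ι ν κ I : Type} [Fintype S] [Fintype Λ] [Fintype R] [Fintype J] [Fintype K]
  [Fintype ι] [DecidableEq ι] [Fintype ν] [Fintype κ] [Fintype I]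

namespace Ch

variable {ch : Ch ι J} {F : Fam S Λ R J K} {e : K → ι → ℕ} {K₀ : Set K} {ℓ : R → ι → ℤ}
  {U : Set (ch.WF ν κ Λ)} {x : ch.WF ν κ Λ} {b : ℕ}

theorem Lat.li {W : Wt S Λ R J} (h : ch.Lat W ℓ) {w : I → R → ℤ} (hw : LinearIndependent ℤ w) :
    LinearIndependent ℤ fun o : Option I => o.elim ch.χ fun i i' => ∑ r, w i r * ℓ r i' := by
  classical
  obtain ⟨v, a, b, -⟩ := h.dual
  have b' : ∀ r o, o ≠ some r → ∑ i, ℓ r i * v o i = 0 := fun r => b (some r)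
  refine Fintype.linearIndependent_iff.2 fun c hc => ?_
  have d : ∀ o, c none * ∑ i, ch.χ i * v o i +
      ∑ r, (∑ i, c (some i) * w i r) * ∑ i', ℓ r i' * v o i' = 0 := fun o => by
    have := congrArg (fun a : ι → ℤ => ∑ i, a i * v o i) hc
    simp only [Fintype.sum_option, Option.elim, Pi.add_apply, Pi.smul_apply, Finset.sum_apply,
      smul_eq_mul, add_mul, Finset.sum_add_distrib, Pi.zero_apply, zero_mul, Finset.sum_const_zero,
      Finset.sum_mul, Finset.mul_sum, mul_assoc] at this ⊢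
    rw [← this]
    exact congrArg _ (Finset.sum_comm.trans (Finset.sum_congr rfl fun _ _ => Finset.sum_comm))
  have f : c none = 0 := by
    have := d none
    rwa [show ∑ i, ch.χ i * v none i = 1 from a none, Finset.sum_eq_zero fun r _ =>
      mul_eq_zero_of_right _ (b' r none nofun), mul_one, add_zero] at this
  have g := Fintype.linearIndependent_iff.1 hw (fun i => c (some i)) (funext fun r => by
    have := d (some r)
    rw [f, zero_mul, zero_add, Finset.sum_eq_single r (fun r' _ k => mul_eq_zero_of_right _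
      (b' r' (some r) (by simpa using k.symm))) (by simp),
      show ∑ i, ℓ r i * v (some r) i = 1 from a (some r), mul_one] at this
    simpa using this)
  rintro (_ | i)
  exacts [f, g i]

theorem Lat.gr [DecidableEq I] (h : ch.Lat F.toWt ℓ) (hF : F.Inv) {δ : J → ℕ} {φ : I → J} {n ψ}
    (hs : F.Sh δ φ n ψ) (u : ν → ℕ) : Gr ch F (fun m => u m • δ) φ n ψ where
  zer := hF.zer_base
  free := hs.free
  li := by simpa only [← h.wd] using h.li hs.li
  neg j i a m := by simp [hs.neg j i a]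
  an := hs.an
  wd j a b := funext fun i => by
    simp only [h.wd, hs.wd j a b, Finset.sum_apply, Pi.smul_apply, smul_eq_mul, Finset.sum_mul,
      Finset.mul_sum, mul_assoc]
    exact Finset.sum_comm
  ord j a b m := by
    simp only [Pi.smul_apply, smul_eq_mul, Nat.cast_mul, hs.ord j a b, Finset.mul_sum]
    exact Finset.sum_congr rfl fun _ _ => mul_left_comm _ _ _
  E := hs.E

theorem Num₀.cuts (h : Num₀ ch) : ch.Cuts := ⟨h.a_ne, h.cut⟩

theorem Num₀.mfd_baseF (h : Num₀ ch) (hB : F.Sm b) (hx : x ∈ ch.baseF ν κ F.B) :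
    ∃ n : ℕ, (n + Fintype.card κ : ℤ) = b + ch.dimB (Mk ν κ) ∧ MfdAt (ch.baseF ν κ F.B) n x := by
  obtain ⟨l, hl⟩ := h.cut
  obtain ⟨N, a, c⟩ := h.mfdAt hx.2.1
  obtain ⟨n, d, f⟩ := Ch.mfd_baseF hl (fun e => h.chi (by simp [e])) hx ⟨hx.1, hB ⟨_, hx.1⟩⟩ c
  exact ⟨n, a ▸ by exact_mod_cast d, f⟩

open Classical in
variable (ch ν κ F) in
/-- the dimension of the main stratum; `b` is the dimension of the parameter space and `c` the
number of free base fields -/
noncomputable def dimM (b c : ℕ) : ℤ :=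
  b + ch.dimB (Mk ν κ) + c * (1 - ch.g) - Fintype.card κ * (1 + c) -
    ∑ j with j ∉ F.mov, finrank ℂ (ch.Th j) * ch.h (some j)

open Classical in
variable (ch ν κ F) in
/-- the virtual dimension -/
noncomputable def vdim (ℓ : R → ι → ℤ) (K₀ : Set K) (b c : ℕ) : ℤ :=
  b - Fintype.card S + 3 * ch.g - 3 + Fintype.card (Mk ν κ) +
    (Fintype.card ι - 1 - c) * (ch.g - 1 + Fintype.card κ) +
    ∑ j with j ∈ F.mov, ch.eu (ch.wd j) - ∑ k with k ∈ K₀, ch.eu (F.dk ℓ k)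

theorem Num₀.mfd_main [DecidableEq I] (h : Num₀ ch) (hB : F.Sm b) {u : ν → J → ℕ} {φ : I → J} {n ψ}
    (hG : Gr ch F u φ n ψ) (hx : x ∈ ch.main κ F u) :
    ((ch.dimM ν κ F b (Fintype.card I)).toNat : ℤ) = ch.dimM ν κ F b (Fintype.card I) ∧
      MfdAt (ch.main κ F u) (ch.dimM ν κ F b (Fintype.card I)).toNat x := by
  obtain ⟨l, hl⟩ := h.cut
  obtain ⟨N, a, c⟩ := h.mfdAt hx.1.1.2.1
  obtain ⟨d, f, g⟩ := Ch.mfd_main hl h.a_ne hG hx ⟨hx.1.1.1, hB ⟨_, hx.1.1.1⟩⟩ c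
  rw [show ch.dimM ν κ F b (Fintype.card I) = d by
    rw [dimM, ← a]; linear_combination -f]
  exact ⟨rfl, g⟩

theorem vdim_eq (ha : ∀ l, ch.a l ≠ 0) (hx : x.2 ∈ ch.base (Mk ν κ)) (c : ℕ) :
    ch.vdim ν κ F ℓ K₀ b c = ch.dimM ν κ F b c - finrank ℂ (ch.AF ν κ S) - ch.rk F ℓ K₀ := by
  classical
  have a : ∀ j, ch.eu (fun i => ch.a (some j) i) = ch.h (some j) := fun j => (h_eq₁ hx (ha _)).symm
  have d := Finset.sum_filter_add_sum_filter_not Finset.univ (· ∈ F.mov)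
    fun j => (finrank ℂ (ch.Th j) * ch.h (some j) : ℤ)
  rw [vdim, dimM, dimB, rk, finrank_AF, finrank_A]
  simp only [a, Finset.sum_sub_distrib, Fintype.card_sum, Fintype.card_prod, Fintype.card_bool]
  push_cast
  change _ = _ - (_ - ∑ j with j ∈ F.mov, ch.eu (ch.wd j) + _)
  linear_combination d

variable (ch) in
/-- a good chart for the family `F` with the neighbourhood `U` of the solutions -/
structure Ok (F : Fam S Λ R J K) (e : K → ι → ℕ) (K₀ : Set K) (ℓ : R → ι → ℤ) (b : ℕ)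
    (U : Set (ch.WF ν κ Λ)) : Prop extends ch.Std F e K₀ ℓ where
  pr : Pr F U
  num : Num₀ ch
  lat : ch.Lat F.toWt ℓ
  sm : F.Sm b

namespace Ok

variable (h : ch.Ok F e K₀ ℓ b U) {Z : Set (ch.WF ν κ Λ)} {N : ℕ}
include h

theorem mfd_baseF : ∀ x ∈ ch.baseF ν κ F.B, ∃ n, MfdAt (ch.baseF ν κ F.B) n x := fun _ a =>
  (h.num.mfd_baseF h.sm a).imp fun _ b => b.2

theorem lc_baseF : IsLocallyClosed (ch.baseF ν κ F.B) :=
  isLocallyClosed_of_mfd fun x => (h.mfd_baseF x x.2).imp fun _ a => a.2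

theorem dom_clo (hZ : Lev F Z) : Dom F e (closure Z ∩ ch.baseF ν κ F.B)
    (closure Z ∩ ch.baseF ν κ F.B ∩ U ∩ ch.dom ν κ F e) :=
  h.toStd.dom_lev h.pr (hZ.clo h.inv h.cuts) (isClosed_closure.isLocallyClosed.inter h.lc_baseF)

theorem vd_clo (hZ : Lev F Z) (hm : ∀ x ∈ Z, MfdAt Z N x) (ha : LocAn (ch.baseF ν κ F.B) Z) :
    Vd F e (closure Z ∩ ch.baseF ν κ F.B) (closure Z ∩ ch.baseF ν κ F.B ∩ U ∩ ch.dom ν κ F e)
      (Z ∩ U ∩ ch.dom ν κ F e) (N - finrank ℂ (ch.AF ν κ S)) :=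
  h.toStd.vd_clo h.pr h.mfd_baseF hZ hm ha

variable [DecidableEq I] {u : ν → J → ℕ} {φ : I → J} {n : J → I → ℤ} {ψ : J → (Λ → ℂ) → ℂ}
  (hG : Gr ch F u φ n ψ) (ha : LocAn (ch.baseF ν κ F.B) (ch.main κ F u))
include hG ha

/-- **the closure of the main stratum is a base cycle** -/
theorem vd : Vd F e (ch.cyc κ F u) (ch.cyc κ F u ∩ U ∩ ch.dom ν κ F e)
    (ch.main κ F u ∩ U ∩ ch.dom ν κ F e)
    ((ch.dimM ν κ F b (Fintype.card I)).toNat - finrank ℂ (ch.AF ν κ S)) :=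
  h.vd_clo (lev_main h.inv u) (fun _ a => (h.num.mfd_main h.sm hG a).2) ha

/-- **the virtual dimension** -/
theorem deg : BM.IsDeg (2 * ch.vdim ν κ F ℓ K₀ b (Fintype.card I)) (virF F e (ch.cyc κ F u)) :=
  h.toStd.deg_clo h.pr h.mfd_baseF (lev_main h.inv u) (fun _ a => (h.num.mfd_main h.sm hG a).2) ha
    fun ⟨_, a⟩ => by rw [(h.num.mfd_main h.sm hG a).1, vdim_eq h.cuts.ne a.1.1.2.1]

end Ok

end Ch

namespace Fam

variable [DecidableEq R] {F : Fam S Λ R J K} {k D n : ℕ} {g : ℤ} {d : R → ℤ} {K₀ : Set K}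

theorem chart_std (h : F.Good) (hR : F.Reg K₀) (hD : F.BigD k D) :
    (F.chart g n d k D).Std F (F.tdeg (F.chart g n d k D)) K₀ ℓs :=
  haveI : Nonempty J := h.mov_ne.nonempty
  ⟨h.toInv, hR, Cv.chart_fits g n d h.deg, chart_cuts hD, chart_wd'⟩

theorem chart_eu (w : R → ℤ) :
    (F.chart g n d k D).eu (fun o => ∑ r, w r * ℓs r o) = ∑ r, w r * d r + 1 - g := by
  simp only [sum_ℓs, Ch.eu, chart, Tgt.chart, mul_add, Finset.sum_add_distrib, ← Finset.sum_mul,
    Cv.sum_hat]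
  simp [Tgt.hat]

open Classical in
variable (F ν κ) in
/-- the virtual dimension -/
noncomputable def vdim (K₀ : Set K) (b c : ℕ) (g : ℤ) (d : R → ℤ) : ℤ :=
  b - Fintype.card S + 3 * g - 3 + Fintype.card ν + 2 * Fintype.card κ +
    (Fintype.card R - c) * (g - 1 + Fintype.card κ) +
    ∑ j with j ∈ F.mov, (∑ r, F.w j r * d r + 1 - g) - ∑ k with k ∈ K₀, (∑ r, F.χ k r * d r + 1 - g)

theorem chart_vdim (b c : ℕ) :
    (F.chart g n d k D).vdim ν κ F ℓs K₀ b c = F.vdim ν κ K₀ b c g d := by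
  have a : ∀ j, (F.chart g n d k D).eu ((F.chart g n d k D).wd j) = _ := fun j =>
    (congrArg _ (funext (chart_wd' j))).trans (chart_eu (F.w j))
  have e : ∀ q, (F.chart g n d k D).eu (F.dk ℓs q) = _ := fun q => chart_eu (F.χ q)
  simp only [Ch.vdim, vdim, a, e, Fintype.card_sum, Fintype.card_prod, Fintype.card_bool,
    Fintype.card_option, show (F.chart g n d k D).g = g from rfl]
  push_cast
  ring

theorem chart_ok (h : F.Good) (hR : F.Reg K₀) {b : ℕ} (hB : F.Sm b) (hk : F.Big k)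
    (hD : F.BigD k D) {U : Set ((F.chart g n d k D).WF ν κ Λ)} (hU : Ch.Pr F U) :
    (F.chart g n d k D).Ok F (F.tdeg (F.chart g n d k D)) K₀ ℓs b U :=
  ⟨chart_std h hR hD, hU, num₀ hk.two_le hD g n d, chart_lat hD, hB⟩

theorem Tg.nice_zero {F : Fam Empty Empty R J K} (h : F.Tg) : F.Nice 0 where
  toGood := h.toGood
  reg := ⟨_, h.reg⟩
  sm := ⟨_, fun l => ((MfdAt.univ l.1).congr (.of_forall fun _ => by simp [h.B])).isMfd l.2⟩
  pol := ⟨∅, by simp, by simp [h.E]⟩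
  sh := ⟨0, Fin.elim0, fun _ => 0, fun _ _ => 1, fun i => i.elim0, linearIndependent_empty_type,
    fun _ i => i.elim0, by simp [h.mov], fun _ _ _ => ⟨analyticAt_const, one_ne_zero⟩,
    by simp [h.mov], by simp [h.mov], by simp [h.mov, h.E], fun _ _ => rfl⟩

end Fam

end Vale.Agent.P269
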