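import Vale.Agent.P269.Vir.Lim

set_option linter.all false

/-!
# The admissible points form a closed subset of the smooth space
-/

namespace Vale.Agent.P269.Ch

open Set Function Topology Filter

variable {S Λ R J K ι ν κ α : Type} [Fintype S] [Fintype Λ] [Fintype R] [Fintype J] [Fintype K]
  [Fintype ι] [DecidableEq ι] [Fintype ν] [Fintype κ] {ch : Ch ι J} {F : Fam S Λ R J K}
  {l : Filter α} [l.NeBot] {x : α → ch.WF ν κ Λ} {x₀ : ch.WF ν κ Λ}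

/-- limits of values of fields -/
theorem lim_fld (h0 : ∀ n, Surjective (x₀.2.Q n)) (h : Tendsto x l (𝓝 x₀)) {c : α → V ch.M}
    {c₀ : V ch.M} (hc : Tendsto c l (𝓝 c₀)) (hc₀ : c₀ ∈ crv x₀.2) {j : J}
    (hv : ∀ᶠ a in l, c a ∈ crv (x a).2 ∧ ∃ y, Val (x a).2 j (c a) y) :
    (∃ y, Val x₀.2 j c₀ y) ∧ Tendsto (fun a => fld (x a).2 (c a) j) l (𝓝 (fld x₀.2 c₀ j)) := by
  obtain ⟨z₀, a0, rfl⟩ := id hc₀
  have : Nonempty ch.Pt := ⟨z₀⟩
  obtain ⟨z, b⟩ := (hv.mono fun a b => show ∃ z ∈ gr (x a).2, z.1 = c a from b.1).choice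
  obtain ⟨u, b1, b2⟩ := exists_tendsto_gr h0 h.snd_nhds (b.mono fun _ b => b.1)
    (hc.congr' (b.mono fun _ b => b.2.symm))
  obtain ⟨m, hm⟩ := tvZ_ne (ch := ch) a0.1 j
  have d : ∀ᶠ a in l, ∀ n, yv (x a).2 (z a) j n = fld (x a).2 (c a) j * tvZ (z a).1 j n :=
    (hv.and b).mono fun a d n => by
      have := val_fld d.1.2 (z a).2 (d.2.2 ▸ d.2.1) n
      rwa [← d.2.2] at this ⊢
  have e := ((tendsto_yv h b1 j m).div (tendsto_tvZ b1 j m) hm).congr' (f₂ := fun a =>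
      fld (x a).2 (c a) j) (by
    filter_upwards [d, (tendsto_tvZ b1 j m).eventually_ne hm] with a d e
    rw [Pi.div_apply, d m, mul_div_cancel_right₀ _ e])
  have f : Val x₀.2 j z₀.1 (yv x₀.2 (z₀.1, u) j m / tvZ z₀.1 j m) := fun u' hu n => by
    obtain rfl := b2 u' hu
    exact tendsto_nhds_unique_of_eventuallyEq
      (tendsto_yv h b1 j n) (e.mul (tendsto_tvZ b1 j n)) (d.mono fun _ d => d n)
  exact ⟨⟨_, f⟩, Cv.fld_eq hc₀ f ▸ e⟩

theorem Cuts.adm_lim (hc : ch.Cuts) (hF : F.Inv) (hx : ∀ᶠ a in l, x a ∈ ch.adm ν κ F)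
    (h0 : x₀ ∈ ch.baseF ν κ F.B) (h : Tendsto x l (𝓝 x₀)) : x₀ ∈ ch.adm ν κ F := by
  classical
  have a : ∀ c₀ ∈ crv x₀.2, ∃ c : α → V ch.M, (∀ᶠ a in l, c a ∈ crv (x a).2) ∧
      Tendsto c l (𝓝 c₀) := by
    rintro _ ⟨z₀, hz, rfl⟩
    obtain ⟨z, a, b⟩ := hc.exists_gr (hx.mono fun _ b => b.1.2.1) h0.2.1 h.snd_nhds hz
    exact ⟨fun a => (z a).1, a.mono fun a b => ⟨_, b, rfl⟩, b.fst_nhds⟩
  have b : ∀ j ∉ F.mov, ∀ {c : α → V ch.M} {c₀}, c₀ ∈ crv x₀.2 → (∀ᶠ a in l, c a ∈ crv (x a).2) →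
      Tendsto c l (𝓝 c₀) → _ := fun j hj c c₀ a b d => lim_fld h0.2.1.1 h d a (j := j)
    ((b.and hx).mono fun _ e => ⟨e.1, e.2.2.1 j hj _ e.1⟩)
  have p : ∀ j ∉ F.mov, ∀ n, _ := fun j hj n => (b j hj (h0.2.1.2.2.2.1 n).1
    (hx.mono fun _ e => (e.1.2.1.2.2.2.1 n).1)
    (((W.pL (ch := ch) n).continuous.tendsto _).comp h.snd_nhds)).2
  refine ⟨h0, fun j hj c₀ d => (a c₀ d).elim fun _ e => (b j hj d e.1 e.2).1, fun c₀ d => ?_,
    fun j hj => tendsto_nhds_unique_of_eventuallyEq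
      (((W.XL (ch := ch) (ν := Mk ν κ) j).continuous.tendsto _).comp h.snd_nhds) tendsto_const_nhds
      (hx.mono fun _ e => e.2.2.2.1 j hj), fun j hj q => tendsto_nhds_unique_of_eventuallyEq
      (p j hj _) (p j hj _) (hx.mono fun _ e => e.2.2.2.2 j hj q)⟩
  obtain ⟨c, e, f⟩ := a c₀ d
  refine hF.baseE _ (fun j => if j ∈ F.mov then 0 else fld x₀.2 c₀ j) _ (fun j hj => if_neg hj)
    (hF.closedE.mem_of_tendsto (f := fun a => ((x a).1, fun j => if j ∈ F.mov then 0 else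
      fld (x a).2 (c a) j)) (h.fst_nhds.prodMk_nhds (tendsto_pi_nhds.2 fun j => ?_))
      ((hx.and e).mono fun _ g => hF.baseE _ _ _ (fun j hj => (if_neg hj).symm) (g.1.2.2.1 _ g.2)))
  by_cases hj : j ∈ F.mov
  · simp only [if_pos hj, tendsto_const_nhds]
  · simpa only [if_neg hj] using (b j hj d e f).2

omit [l.NeBot] in
/-- **`adm` is closed in `baseF`** -/
theorem Cuts.closure_inter_subset_adm (hc : ch.Cuts) (hF : F.Inv) {Z : Set (ch.WF ν κ Λ)}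
    (hZ : Z ⊆ ch.adm ν κ F) : closure Z ∩ ch.baseF ν κ F.B ⊆ ch.adm ν κ F := fun x hx =>
  let ⟨U, a, b⟩ := mem_closure_iff_ultrafilter.1 hx.1
  hc.adm_lim (l := U.toFilter) (x := id) hF (mem_of_superset a hZ) hx.2 (tendsto_id.mono_right b)

omit [l.NeBot] in
theorem Cuts.cyc_subset_adm (hc : ch.Cuts) (hF : F.Inv) (u : ν → J → ℕ) :
    ch.cyc κ F u ⊆ ch.adm ν κ F := hc.closure_inter_subset_adm hF fun _ a => a.1

omit [l.NeBot] in
theorem Cuts.adm_eq (hc : ch.Cuts) (hF : F.Inv) :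
    ch.adm ν κ F = ch.baseF ν κ F.B ∩ closure (ch.adm ν κ F) :=
  (subset_inter (fun _ a => a.1) subset_closure).antisymm
    ((inter_comm _ _).le.trans (hc.closure_inter_subset_adm hF Subset.rfl))

end Vale.Agent.P269.Ch
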