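import Vale.Agent.P269.Vir.Ob

/-!
# The rank of the obstruction space on a nodal curve
-/

set_option linter.unusedSectionVars false
set_option linter.unusedVariables false

namespace Vale.Agent.P269.Vir

open Set Function Topology Filter Module Cv

variable {J K Z : Type} [Fintype J] {Θ : J → Type} [∀ j, AddCommGroup (Θ j)] [∀ j, Module ℂ (Θ j)]
  {X : Type} [TopologicalSpace X] {R : RS X} {N : Finset (X × X)} {c : CD R K Z Θ} {L : J → LB R}
  {Lk : K → LB R}

namespace Rk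

theorem an_det {n : Type} [Fintype n] [DecidableEq n] {M : ℂ → Matrix n n ℂ}
    (h : ∀ i j, AnalyticAt ℂ (fun t => M t i j) 0) : AnalyticAt ℂ (fun t => (M t).det) 0 := by
  simp only [Matrix.det_apply']
  exact Finset.analyticAt_fun_sum _ fun σ _ =>
    analyticAt_const.mul (Finset.analyticAt_fun_prod _ fun i _ => h _ _)

variable {mov : Set J} {K₀ : Set K}

theorem an_of_jac [Finite K] {G : ℂ → K → J → ℂ} {A : ℂ → K → ℂ}
    (hG : ∀ k, ∀ j ∈ mov, AnalyticAt ℂ (fun t => G t k j) 0) (hJ : ∀ t, Jac (G t) mov K₀)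
    (hA : ∀ t, A t ∈ Wg (G t) mov) (h0 : ∀ k ∈ K₀, AnalyticAt ℂ (fun t => A t k) 0) (k : K) :
    AnalyticAt ℂ (fun t => A t k) 0 := by
  classical
  cases nonempty_fintype K₀
  choose η e1 e2 using fun k' : K₀ => (hJ 0).ind (Pi.single k'.1 1)
  let M : ℂ → K → K₀ → ℂ := fun t k k' => ∑ j, G t k j * η k' j
  have aM : ∀ k k', AnalyticAt ℂ (fun t => M t k k') 0 := fun k k' =>
    Finset.analyticAt_fun_sum _ fun j _ => by
      by_cases hj : j ∈ mov
      · exact (hG k j hj).mul analyticAt_const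
      · simpa [e1 k' j hj] using analyticAt_const
  let M' : ℂ → Matrix K₀ K₀ ℂ := fun t => Matrix.of fun k k' => M t k k'
  have d0 : (M' 0).det ≠ 0 := by
    rw [show M' 0 = 1 from Matrix.ext fun k k' => by
      simp [M', M, e2 k' k k.2, Matrix.one_apply, Pi.single_apply, Subtype.ext_iff]]
    simp
  have aD : AnalyticAt ℂ (fun t => (M' t).det) 0 := an_det fun k k' => aM k k'
  have aC : ∀ k', AnalyticAt ℂ (fun t => (M' t).cramer (fun k => A t k) k' / (M' t).det) 0 :=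
    fun k' => (an_det (M := fun t => (M' t).updateCol k' fun k => A t k) fun i j => by
      simp only [Matrix.updateCol_apply]
      split_ifs
      exacts [h0 i i.2, aM i j]).div aD d0
  refine (Finset.analyticAt_fun_sum Finset.univ fun k' _ => (aM k k').mul (aC k')).congr
    ((aD.continuousAt.eventually_ne d0).mono fun t ht => ?_)
  have m : (fun k => ∑ k', M t k k' * ((M' t).cramer (fun k => A t k) k' / (M' t).det)) ∈
      Wg (G t) mov := ⟨fun j => ∑ k', η k' j * ((M' t).cramer (fun k => A t k) k' / (M' t).det),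
    fun j hj => by simp [e1 _ j hj], fun k => by
      simp only [M, Finset.mul_sum, Finset.sum_mul, mul_assoc]
      exact Finset.sum_comm⟩
  refine sub_eq_zero.1 (congrFun ((hJ t).eq_zero (sub_mem m (hA t)) fun k hk => ?_) k)
  have := congrFun (Matrix.mulVec_cramer (M' t) fun k => A t k) ⟨k, hk⟩
  simp only [Matrix.mulVec, dotProduct, M', Matrix.of_apply, Pi.smul_apply, smul_eq_mul] at this
  simp only [Pi.sub_apply, ← mul_div_assoc, ← Finset.sum_div, M', this]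
  rw [mul_div_cancel_left₀ _ ht, sub_self]

theorem Wg_scale {g : K → J → ℂ} {w : K → ℂ} (h : w ∈ Wg g mov) (a : K → ℂ) {b : J → ℂ}
    (hb : ∀ j, b j ≠ 0) : (fun k => w k / a k) ∈ Wg (fun k j => g k j * b j / a k) mov := by
  obtain ⟨η, h1, h2⟩ := h
  refine ⟨fun j => η j / b j, fun j hj => by simp [h1 j hj], fun k => ?_⟩
  simp only [← h2, Finset.sum_div]
  exact Finset.sum_congr rfl fun j _ => by field_simp [hb j]

theorem exists_kos {Θ : Type} [AddCommGroup Θ] [Module ℂ Θ] {t Y0 : Θ →ₗ[ℂ] ℂ} {m m' : Θ}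
    {y y' : ℂ} (h : t m ≠ 0 ∨ t m' ≠ 0) (e : kos t Y0 (m, m') = t m' * y - t m * y') :
    ∃ Y, (∀ p, kos t Y p = kos t Y0 p) ∧ Y m = y ∧ Y m' = y' := by
  simp only [kos] at e
  obtain ⟨a, h1, h2⟩ : ∃ a, Y0 m + a * t m = y ∧ Y0 m' + a * t m' = y' := by
    rcases h with h | h
    · exact ⟨(y - Y0 m) / t m, by field_simp; ring, by field_simp; linear_combination -e⟩
    · exact ⟨(y' - Y0 m') / t m', by field_simp; linear_combination e, by field_simp; ring⟩
  exact ⟨Y0 + a • t, fun p => by rw [kos_add, kos_self, add_zero], h1, h2⟩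

theorem tends {A : LB R} {s : X → ℂ} {p : X} (h : A.Sec s p) :
    Tendsto (fun y => s y / A.φ p y) (𝓝[≠] p) (𝓝 (s p)) := by
  have := (LB.sec_iff.1 h).continuousAt.tendsto
  rw [A.self, div_one] at this
  exact this.mono_left nhdsWithin_le_nhds

/-- multiplication with a function -/
def mulG (u : X → ℂ) : Gl X Θ K Z →ₗ[ℂ] Gl X Θ K Z where
  toFun κ := (fun j m => κ.1 j m * u, fun k z => κ.2 k z * u)
  map_add' _ _ := Prod.ext (funext₂ fun _ _ => add_mul _ _ _) (funext₂ fun _ _ => add_mul _ _ _)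
  map_smul' t κ := Prod.ext (funext₂ fun j m => smul_mul_assoc t (κ.1 j m) u)
    (funext₂ fun k z => smul_mul_assoc t (κ.2 k z) u)

theorem evG_mulG (u : X → ℂ) (κ : Gl X Θ K Z) (x : X) : evG x (mulG u κ) = u x • evG x κ :=
  Prod.ext (funext₂ fun _ _ => mul_comm _ _) (funext₂ fun _ _ => mul_comm _ _)

variable [T2Space X] [CompactSpace X]

theorem eq_zero_of_can {A : LB R} {s : X → ℂ} {p : X} (h : s ∈ A.Γ) (e : s * RS.can p = 0) :
    s = 0 := by
  have k : ∀ y ≠ p, s y = 0 := fun y hy => by simpa [can_ne hy] using congrFun e y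
  funext y
  by_cases hy : y = p
  · have := R.neBot y
    exact tendsto_nhds_unique (tends (h y)) (tendsto_const_nhds.congr'
      (eventually_mem_nhdsWithin.mono fun z hz => by simp [k z (hy ▸ hz)]))
  · exact k y hy

theorem ev_sm' (N : Finset (X × X)) (y : X) : ∀ᶠ z in 𝓝[≠] y, Sm N z := by
  have a : ∀ p : X, ∀ᶠ z in 𝓝[≠] y, p ≠ z := fun p => by
    by_cases h : y = p
    · exact h ▸ eventually_mem_nhdsWithin.mono fun z hz => Ne.symm hz
    · exact ((eventually_ne_nhds h).filter_mono nhdsWithin_le_nhds).mono fun z hz => hz.symm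
  exact N.eventually_all.2 fun n _ => (a n.1).and (a n.2)

theorem exists_twist (N : Finset (X × X)) (n : ℕ) :
    ∃ T ∈ Submonoid.closure (R.pt '' {p | Sm N p}), Ge T n := by
  have : ∀ x : X, ∃ W ∈ 𝓝 x, IsPreconnected W ∧ ∃ y ∈ W, Sm N y := fun x => by
    obtain ⟨r, hr, h⟩ := Metric.mem_nhds_iff.1 (R.tgt_nhds x)
    have m : R.i x '' Metric.ball 0 r ∈ 𝓝 x := R.map_i x ▸ image_mem_map (Metric.ball_mem_nhds _ hr)
    have := R.neBot x
    exact ⟨_, m, (convex_ball _ _).isPreconnected.image _ fun t ht =>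
      (R.contAt_i (h ht)).continuousWithinAt,
      (Eventually.and (nhdsWithin_le_nhds m) (ev_sm' N x)).exists⟩
  choose W a b y y1 y2 using this
  obtain ⟨T, hT⟩ := CompactSpace.elim_nhds_subcover W a
  have g : Ge (∏ x ∈ T, R.pt (y x)) 1 := fun U u ⟨z, hz⟩ => by
    obtain ⟨x, d, e⟩ := mem_iUnion₂.1 (hT.ge (mem_univ z))
    rw [degOn_prod]
    refine le_trans ?_ (Finset.single_le_sum (f := fun x => degOn (R.pt (y x)) U)
      (fun x _ => (eff_pt (y x)).ge U u ⟨z, hz⟩) d)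
    rw [degOn_pt u, if_pos ((b x).subset_isClopen u ⟨z, e, hz⟩ (y1 x))]
  exact ⟨_, pow_mem (prod_mem fun x _ => Submonoid.subset_closure (mem_image_of_mem _ (y2 x))) n,
    (g.pow n).mono (mul_one _).ge⟩

theorem ge_neg (A : LB R) : ∃ n : ℕ, Ge A (-n) := by
  obtain ⟨E, ⟨s, a, a'⟩, b⟩ := exists_eff A
  refine ⟨(deg E).toNat, fun U u d => ?_⟩
  have := b.ge U u d
  have := card_le_degOn u.compl (fun x _ => a x) (a' ▸ subset_univ _) (T := ∅) (by simp)
  have := degOn_add_compl (L := E) u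
  rw [degOn_mul] at *
  omega

theorem exists_big (hN : Nd N) {α : Type} [Finite α] (A : α → LB R) :
    ∃ T ∈ Submonoid.closure (R.pt '' {p | Sm N p}), ∀ a, h1 N (A a * T) = 0 := by
  choose n hn using fun a => ge_neg (A a / omega R N ∅)
  obtain ⟨m, hm⟩ := (finite_range n).bddAbove
  obtain ⟨T, h1, h2⟩ := exists_twist (R := R) N (m + 1)
  refine ⟨T, h1, fun a => h1_eq_zero hN ?_⟩
  rw [mul_div_right_comm]
  exact ((hn a).mul h2).mono (by have := hm ⟨a, rfl⟩; omega)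

theorem chiN_pt (A : LB R) (p : X) : chiN N (A * R.pt p) = chiN N A + 1 := by
  rw [chiN, chiN, deg_mul, deg_pt]; ring

end Rk

open Rk

namespace CD

theorem Ok.exists_Nrm [Finite K] (h : c.Ok N L Lk) {a : K → X → ℂ}
    (ha : ∀ k ∈ c.K₀, a k ∈ H0 N (Lk k)) : ∃ a' ∈ c.Nrm N Lk, ∀ k ∈ c.K₀, a' k = a k := by
  choose b b1 b2 using fun x => (h.reg x).jac.exists_mem fun k => a k x
  refine ⟨fun k x => b x k, ⟨fun k => ⟨fun x => ?_, fun n hn => ?_⟩, b1⟩,
    fun k hk => funext fun x => b2 x k hk⟩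
  · refine an_of_jac (fun k j hj => ?_)
      (fun t => (h.reg (R.i x t)).jac.scale (fun k => (Lk k).ne x (R.i x t))
        fun j => (L j).ne x (R.i x t))
      (fun t => Wg_scale (b1 _) (fun k => (Lk k).φ x (R.i x t)) fun j => (L j).ne x (R.i x t))
      (fun k hk => ?_) k
    · exact AnalyticAt.congr ((h.g_mem k hj).1 x) (.of_forall fun t => by
        simp only [LB.loc, LB.div_φ, div_div_eq_mul_div])
    · simp only [b2 _ k hk]
      exact (ha k hk).1 x
  · obtain ⟨η, e1, e2⟩ := b1 n.2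
    refine sub_eq_zero.1 (congrFun ((h.reg n.1).jac.eq_zero (sub_mem (b1 n.1) ⟨η, e1, fun k => ?_⟩)
      fun k hk => by simp [b2 _ k hk, (ha k hk).2 n hn]) k)
    rw [← e2]
    refine Finset.sum_congr rfl fun j _ => ?_
    by_cases hj : j ∈ c.mov
    · exact congrArg (· * η j) ((h.g_mem k hj).2 n hn)
    · simp [e1 j hj]

variable (c N L) in
/-- coordinates on the space of fields -/
noncomputable def fldE : mv Θ (fun j => H0 N (L j * c.B j)) c.mov ≃ₗ[ℂ] c.Fld N L :=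
  LinearEquiv.ofBijective
    { toFun Y := ⟨fun j => (H0 N (L j * c.B j)).subtype ∘ₗ Y.1 j,
        fun j hj => by simp [mem_mv.1 Y.2 j hj], fun j m => (Y.1 j m).2⟩
      map_add' _ _ := rfl
      map_smul' _ _ := rfl }
    ⟨fun Y Y' e => Subtype.ext (funext fun j => LinearMap.ext fun m => Subtype.ext
      (LinearMap.congr_fun (congrFun (congrArg Subtype.val e) j) m)), fun Y =>
      ⟨⟨fun j => (Y.1 j).codRestrict _ (Y.2.2 j), fun j hj => LinearMap.ext fun m => Subtype.ext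
        (LinearMap.congr_fun (Y.2.1 j hj) m)⟩, rfl⟩⟩

/-- coordinates on the sections of the normal sheaf -/
noncomputable def Ok.nrmE [Finite K] (h : c.Ok N L Lk) :
    c.Nrm N Lk ≃ₗ[ℂ] ∀ k : c.K₀, H0 N (Lk k) :=
  LinearEquiv.ofBijective
    { toFun a k := ⟨a.1 k, a.2.1 k⟩
      map_add' _ _ := rfl
      map_smul' _ _ := rfl }
    ⟨(injective_iff_map_eq_zero _).2 fun a e => Subtype.ext (funext₂ fun k x => congrFun
      ((h.reg x).jac.eq_zero (a.2.2 x) fun k hk =>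
        congrFun (congrArg Subtype.val (congrFun e ⟨k, hk⟩)) x) k), fun a => by
      classical
      obtain ⟨b, b1, b2⟩ := h.exists_Nrm (a := fun k => if hk : k ∈ c.K₀ then (a ⟨k, hk⟩).1 else 0)
        fun k hk => by rw [dif_pos hk]; exact (a ⟨k, hk⟩).2
      exact ⟨⟨b, b1⟩, funext fun k => Subtype.ext ((b2 k k.2).trans (dif_pos k.2))⟩⟩

variable [T2Space X] [CompactSpace X] [Finite K] [∀ j, FiniteDimensional ℂ (Θ j)] [Fintype c.mov]
  [Fintype c.K₀]

theorem fin_Fld : FiniteDimensional ℂ (c.Fld N L) := (fldE N c L).finiteDimensional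

theorem finrank_Fld : finrank ℂ (c.Fld N L) =
    ∑ j : c.mov, finrank ℂ (Θ j) * finrank ℂ (H0 N (L j * c.B j)) :=
  (fldE N c L).finrank_eq.symm.trans (finrank_mv _ _)

theorem Ok.finrank_Nrm (h : c.Ok N L Lk) :
    finrank ℂ (c.Nrm N Lk) = ∑ k : c.K₀, finrank ℂ (H0 N (Lk k)) :=
  h.nrmE.finrank_eq.trans (finrank_pi_fintype ℂ)

theorem Ok.exists_dG (h : c.Ok N L Lk) (h1 : ∀ j ∈ c.mov, Cv.h1 N (L j) = 0) {κ : Gl X Θ K Z}
    (hκ : κ ∈ c.Ob N L Lk) : ∃ Y ∈ c.Fld N L, (c.dG Y).1 = κ.1 := by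
  choose Y0 a b using fun x => PD.mem_Im.1 (hκ.2.2 x)
  have e : ∀ x j m, kos (evY x c.tv j) (Y0 x j) m = κ.1 j m x := fun x j m =>
    congrFun (congrFun (congrArg Prod.fst (b x)) j) m
  have : ∀ j, ∃ Y : Θ j →ₗ[ℂ] X → ℂ, (j ∉ c.mov → Y = 0) ∧ (∀ m, Y m ∈ H0 N (L j * c.B j)) ∧
      ∀ m x, kos (evY x c.tv j) (LinearMap.proj x ∘ₗ Y) m = κ.1 j m x := fun j => by
    by_cases hj : j ∈ c.mov
    swap
    · exact ⟨0, fun _ => rfl, fun _ => zero_mem _, fun m x => by rw [← e, a x j hj]; rfl⟩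
    have t := h.tv_mem j hj
    have bp := fun x => (h.reg x).tv_ne j hj
    obtain ⟨_, ⟨m, rfl⟩, _, ⟨m', rfl⟩, hm⟩ := exists_pencil (W := LinearMap.range (c.tv j))
      (by rintro _ ⟨m, rfl⟩; exact (t m).1) fun x => let ⟨m, hm⟩ := bp x; ⟨_, ⟨m, rfl⟩, hm⟩
    have mo := h1_mul_le_of_bpf (N := N) fun x => let ⟨m, hm⟩ := bp x; ⟨_, t m, hm⟩
    obtain ⟨f, f1, f', f2, hf⟩ := pencil (t m) (t m') hm (by rw [mul_div_cancel_right, h1 j hj])
      (le_antisymm (((mo _).trans (mo _)).trans (h1 j hj).le) (h1_nonneg _ _)) (hκ.1 j (m, m'))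
    choose Y y1 y2 y3 using fun x => exists_kos (t := evY x c.tv j) (y := f' x) (y' := -f x) (hm x)
      ((e x j (m, m')).trans (by rw [hf]; simp; ring))
    have k : ∀ q q' u, (∀ x, Y x q' = u x) → u ∈ H0 N (L j * c.B j) →
        LinearMap.pi Y q * c.tv j q' ∈ H0 N (L j * c.B j * c.B j) := fun q q' u h2 h3 => by
      convert add_mem (hκ.1 j (q, q')) (H0.mul_mem h3 (t q)) using 1
      funext x
      rw [Pi.add_apply, ← e, ← y1]
      simp [kos, h2]
      ring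
    refine ⟨LinearMap.pi Y, fun k => absurd hj k, fun q => mem_of_bpf (t := ![c.tv j m, c.tv j m'])
      (Fin.forall_fin_two.2 ⟨t m, t m'⟩) (fun x => Fin.exists_fin_two.2 (hm x))
      (Fin.forall_fin_two.2 ⟨k q m f' y2 f2, k q m' (-f) y3 (neg_mem f1)⟩), fun q x => ?_⟩
    rw [LinearMap.proj_pi, y1, e]
  choose Y y1 y2 y3 using this
  exact ⟨Y, ⟨y1, y2⟩, funext₂ fun j m => funext fun x => y3 j m x⟩

theorem Ok.mem_Im (h : c.Ok N L Lk) {κ : Gl X Θ K Z} {x : X}
    (h1 : ∀ j m, (L j * c.B j * c.B j).Sec (κ.1 j m) x) (h2 : ∀ k z, (Lk k * c.E k).Sec (κ.2 k z) x)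
    (e : ∀ y ≠ x, evG y κ ∈ c.Im y) : evG x κ ∈ c.Im x := by
  have := R.neBot x
  have t : PD.Tends (fun y => (c.pt y).sc (fun j => (c.B j).φ x y) (fun j => (L j).φ x y)
      (fun k => (c.E k).φ x y) fun k => (Lk k).φ x y) (𝓝[≠] x) (c.pt x) c.mov :=
    ⟨fun j hj m => (tends ((h.tv_mem j hj m).1 x)).congr fun y => div_eq_inv_mul _ _,
      fun k z j hj => (tends ((h.D_mem k z j hj).1 x)).congr fun y => by
        rw [LB.div_φ]; rfl, fun k z => tends ((h.tot_mem k z).1 x)⟩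
  have t' : Tendsto (fun y => PD.scF (fun j => (c.B j).φ x y) (fun j => (L j).φ x y)
      (fun k => (c.E k).φ x y) (fun k => (Lk k).φ x y) (evG y κ)) (𝓝[≠] x) (𝓝 (evG x κ)) :=
    (tendsto_pi_nhds.2 fun j => tendsto_pi_nhds.2 fun m => (tends (h1 j m)).congr fun y => by
      simp only [LB.mul_φ]; rfl).prodMk_nhds (tendsto_pi_nhds.2 fun k => tendsto_pi_nhds.2 fun z =>
        (tends (h2 k z)).congr fun y => by simp only [LB.mul_φ]; rfl)
  exact t.mem_Im (h.reg x) (.of_forall fun y => (h.reg y).sc (fun j => LB.ne _ _ _)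
    (fun j => LB.ne _ _ _) (fun j => LB.ne _ _ _) fun j => LB.ne _ _ _)
    (fun k j hj => (tends ((h.g_mem k hj).1 x)).congr fun y => by
      rw [LB.div_φ, div_div_eq_mul_div]) (eventually_mem_nhdsWithin.mono fun y hy =>
      PD.sc_mem (fun j => LB.ne _ _ _) (fun j => LB.ne _ _ _) (e y hy)) t'

theorem Ok.exists_div {p : X} (hp : Sm N p) (h : c.Ok N L Lk) {κ : Gl X Θ K Z}
    (hκ : κ ∈ c.Ob N (fun j => L j * R.pt p) fun k => Lk k * R.pt p) (h0 : evG p κ = 0) :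
    ∃ κ' ∈ c.Ob N L Lk, ∀ x, evG x κ = RS.can p x • evG x κ' := by
  have a : ∀ j m, ∃ s ∈ H0 N (L j * c.B j * c.B j), κ.1 j m = s * RS.can p ∧
      ∀ y ≠ p, s y = κ.1 j m y := fun j m => exists_div0 hp
    (by rw [mul_right_comm, mul_right_comm (L j)]; exact hκ.1 j m)
    (congrFun (congrFun (congrArg Prod.fst h0) j) m)
  have b : ∀ k z, ∃ s ∈ H0 N (Lk k * c.E k), κ.2 k z = s * RS.can p ∧
      ∀ y ≠ p, s y = κ.2 k z y := fun k z => exists_div0 hp
    (by rw [mul_right_comm]; exact hκ.2.1 k z) (congrFun (congrFun (congrArg Prod.snd h0) k) z)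
  choose s s1 s2 s3 using a
  choose u u1 u2 u3 using b
  have e : ∀ x ≠ p, evG x (s, u) ∈ c.Im x := fun x hx => by
    rw [show evG x (s, u) = evG x κ from Prod.ext (funext₂ fun j m => s3 j m x hx)
      (funext₂ fun k z => u3 k z x hx)]
    exact hκ.2.2 x
  refine ⟨(s, u), ⟨s1, u1, fun x => ?_⟩, fun x => by
    rw [← evG_mulG]; exact congrArg _ (Prod.ext (funext₂ s2) (funext₂ u2))⟩
  by_cases hx : x = p
  · exact h.mem_Im (fun j m => (s1 j m).1 x) (fun k z => (u1 k z).1 x) (hx ▸ e)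
  · exact e x hx

theorem Ok.exists_ev {p : X} (hp : Sm N p) (h : c.Ok N L Lk)
    (h1 : ∀ j ∈ c.mov, Cv.h1 N (L j * c.B j / R.pt p) = 0) {w : Fib Θ K Z} (hw : w ∈ c.Im p) :
    ∃ Y ∈ c.Fld N L, evG p (c.dG Y) = w := by
  obtain ⟨Y, a, rfl⟩ := PD.mem_Im.1 hw
  have : ∀ j, ∃ s ∈ H0 N (L j * c.B j), j ∈ c.mov → s p = 1 := fun j => by
    by_cases hj : j ∈ c.mov
    · obtain ⟨s, s1, s2⟩ := exists_ne_sm hp (h1 j hj)
      exact ⟨(s p)⁻¹ • s, Submodule.smul_mem _ _ s1, fun _ => inv_mul_cancel₀ s2⟩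
    · exact ⟨0, zero_mem _, fun k => absurd k hj⟩
  choose s s1 s2 using this
  refine ⟨fun j => (Y j).smulRight (s j), ⟨fun j hj => by simp [a j hj],
    fun j m => Submodule.smul_mem _ _ (s1 j)⟩, (evG_dG _ _).trans (congrArg _ (funext fun j =>
      LinearMap.ext fun m => ?_))⟩
  by_cases hj : j ∈ c.mov
  · simp [s2 j hj]
  · simp [a j hj]

variable (c N L Lk) in
/-- the statement which is proved by descending induction -/
def Rank : Prop := FiniteDimensional ℂ (c.Ob N L Lk) ∧ ((∀ j ∈ c.mov, Cv.h1 N (L j * c.B j) = 0) →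
  (finrank ℂ (c.Ob N L Lk) : ℤ) =
    ∑ j : c.mov, (finrank ℂ (Θ j) * chiN N (L j * c.B j) - chiN N (L j)) + ∑ k : c.K₀, chiN N (Lk k))

theorem Ok.rank_big (h : c.Ok N L Lk) (h1 : ∀ j, Cv.h1 N (L j) = 0) (h2 : ∀ k, Cv.h1 N (Lk k) = 0) :
    Rank N c L Lk := by
  classical
  have := fin_Fld (c := c) (N := N) (L := L)
  have := h.nrmE.symm.finiteDimensional
  let ex : (∀ j : c.mov, H0 N (L j)) →ₗ[ℂ] J → X → ℂ := LinearMap.pi fun j =>
    if hj : j ∈ c.mov then (H0 N (L j)).subtype ∘ₗ LinearMap.proj (⟨j, hj⟩ : c.mov) else 0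
  have e0 : ∀ η, ∀ j ∉ c.mov, ex η j = 0 := fun η j hj => by simp [ex, hj]
  have e1 : ∀ η (j : c.mov), ex η j = η j := fun η j => by simp [ex, j.2]
  have e2 : ∀ η j, ex η j ∈ H0 N (L j) := fun η j => by
    by_cases hj : j ∈ c.mov
    exacts [e1 η ⟨j, hj⟩ ▸ (η ⟨j, hj⟩).2, e0 η j hj ▸ zero_mem _]
  let d : c.Fld N L →ₗ[ℂ] c.Ob N L Lk := c.dG.restrict fun _ => h.dG_mem
  let i : (∀ j : c.mov, H0 N (L j)) →ₗ[ℂ] c.Fld N L :=
    (c.tG ∘ₗ ex).codRestrict _ fun η => h.tG_mem (e0 η) (e2 η)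
  let n : c.Nrm N Lk →ₗ[ℂ] c.Ob N L Lk := c.nG.restrict fun _ => h.nG_mem
  have hi : Injective i := fun η η' e => funext fun j => Subtype.ext (funext fun x => by
    obtain ⟨m, hm⟩ := (h.reg x).tv_ne j j.2
    rw [← e1, ← e1]
    exact mul_right_cancel₀ hm
      (congrFun (LinearMap.congr_fun (congrFun (congrArg Subtype.val e) j) m) x))
  obtain ⟨f, r⟩ := finrank_two (F := c.Fld N L) (L := ∀ j : c.mov, H0 N (L j)) (N := c.Nrm N Lk)
    (K := c.Ob N L Lk) d (LinearMap.fst ℂ _ _ ∘ₗ (c.Ob N L Lk).subtype) i n hi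
    (fun a a' e => Subtype.ext (funext₂ fun k x => congrFun (PD.nrm_injective (h.reg x).tot_ne
      (congrArg (evG x) (congrArg Subtype.val e))) k))
    (fun κ => by
      obtain ⟨Y, a, b⟩ := h.exists_dG (fun j _ => h1 j) κ.2
      exact ⟨⟨Y, a⟩, b⟩)
    (fun Y => ⟨fun e => by
      obtain ⟨η, a, b, d⟩ := h.exists_tG Y.2 e
      refine ⟨fun j => ⟨η j, b j⟩, Subtype.ext (Eq.trans (congrArg c.tG (funext fun j => ?_)) d)⟩
      by_cases hj : j ∈ c.mov
      exacts [e1 _ ⟨j, hj⟩, (e0 _ j hj).trans (a j hj).symm], by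
      rintro ⟨η, rfl⟩
      exact congrArg Prod.fst (h.dG_tG (e0 η))⟩)
    fun κ => ⟨fun e => let ⟨a, b, d⟩ := h.exists_nG κ.2 e; ⟨⟨a, b⟩, Subtype.ext d⟩, by
      rintro ⟨a, rfl⟩; rfl⟩
  refine ⟨f, fun h3 => ?_⟩
  rw [finrank_pi_fintype, h.finrank_Nrm, finrank_Fld] at r
  have r' := congrArg (Nat.cast : ℕ → ℤ) r
  push_cast at r'
  simp only [finrank_H0 (h1 _), finrank_H0 (h2 _), fun j : c.mov => finrank_H0 (h3 j j.2)] at r'
  simp only [chiN, Finset.sum_sub_distrib (f := fun j : c.mov => (finrank ℂ (Θ j) : ℤ) * _)]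
  linarith

theorem Ok.rank_step {p : X} (hp : Sm N p) (h : c.Ok N L Lk)
    (H : Rank N c (fun j => L j * R.pt p) fun k => Lk k * R.pt p) : Rank N c L Lk := by
  have := H.1
  let f : c.Ob N L Lk →ₗ[ℂ] c.Ob N (fun j => L j * R.pt p) fun k => Lk k * R.pt p :=
    (mulG (RS.can p)).restrict fun κ a => ⟨fun j m => by
      rw [mul_right_comm (L j), mul_right_comm _ (R.pt p)]
      exact H0.mul_mem (a.1 j m) (can_mem0 hp), fun k z => by
      rw [mul_right_comm]
      exact H0.mul_mem (a.2.1 k z) (can_mem0 hp), fun x =>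
        evG_mulG (RS.can p) κ x ▸ Submodule.smul_mem _ _ (a.2.2 x)⟩
  have i : Injective f := (injective_iff_map_eq_zero _).2 fun κ e => Subtype.ext (Prod.ext
    (funext₂ fun j m => eq_zero_of_can (κ.2.1 j m).1
      (congrFun (congrFun (congrArg (·.1.1) e) j) m))
    (funext₂ fun k z => eq_zero_of_can (κ.2.2.1 k z).1
      (congrFun (congrFun (congrArg (·.1.2) e) k) z)))
  refine ⟨.of_injective f i, fun h1 => ?_⟩
  let v := evG p ∘ₗ (c.Ob N (fun j => L j * R.pt p) fun k => Lk k * R.pt p).subtype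
  have a := LinearMap.finrank_range_add_finrank_ker v
  rw [show LinearMap.ker v = LinearMap.range f from Submodule.ext fun κ => ⟨fun e =>
      let ⟨κ', b, d⟩ := h.exists_div hp κ.2 e
      ⟨⟨κ', b⟩, Subtype.ext (ext_evG fun x => (evG_mulG _ _ x).trans (d x).symm)⟩, by
      rintro ⟨κ, rfl⟩
      exact (evG_mulG _ _ p).trans (by simp [RS.can])⟩, LinearMap.finrank_range_of_inj i,
    show LinearMap.range v = c.Im p from le_antisymm (by rintro _ ⟨κ, rfl⟩; exact κ.2.2.2 p)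
      fun w hw => let ⟨Y, b, d⟩ := (h.twist (R.pt p)).exists_ev hp (fun j hj => by
        rw [mul_right_comm, mul_div_cancel_right, h1 j hj]) hw
      ⟨⟨_, (h.twist _).dG_mem b⟩, d⟩] at a
  have b := H.2 fun j hj => le_antisymm (by
    rw [mul_right_comm]; exact (h1_mul_pt hp _).trans (h1 j hj).le) (h1_nonneg _ _)
  have d := congrArg (Nat.cast : ℕ → ℤ) (h.reg p).finrank_Im
  simp only [mul_right_comm _ (R.pt p), chiN_pt, mul_add, mul_one, Finset.sum_add_distrib,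
    Finset.sum_sub_distrib, Finset.sum_const, Finset.card_univ, nsmul_eq_mul] at b ⊢
  push_cast at d
  have a' := congrArg (Nat.cast : ℕ → ℤ) a
  push_cast at a'
  unfold Im at a'
  linarith

theorem Ok.rank (hN : Nd N) (h : c.Ok N L Lk) : Rank N c L Lk := by
  obtain ⟨T, t1, t2⟩ := exists_big hN (Sum.elim L Lk)
  have H := (h.twist T).rank_big (fun j => t2 (.inl j)) fun k => t2 (.inr k)
  clear t2
  induction t1 using Submonoid.closure_induction_left generalizing L Lk with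
  | one => simpa only [mul_one] using H
  | mul_left _ hp T _ ih =>
    obtain ⟨p, hp, rfl⟩ := hp
    exact h.rank_step hp (ih (h.twist _) (by simpa only [mul_assoc] using H))

theorem Ok.fin_Ob (hN : Nd N) (h : c.Ok N L Lk) : FiniteDimensional ℂ (c.Ob N L Lk) :=
  (h.rank hN).1

theorem Ok.finrank_Ob (hN : Nd N) (h : c.Ok N L Lk) (h1 : ∀ j ∈ c.mov, Cv.h1 N (L j * c.B j) = 0) :
    (finrank ℂ (c.Ob N L Lk) : ℤ) =
      ∑ j : c.mov, (finrank ℂ (Θ j) * chiN N (L j * c.B j) - chiN N (L j)) +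
        ∑ k : c.K₀, chiN N (Lk k) := (h.rank hN).2 h1

end CD

end Vale.Agent.P269.Vir
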