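import Vale.Agent.P269.Vir.Cd
import Vale.Agent.P269.Vir.Rep
import Vale.Agent.P269.Vir.Cone
import Vale.Agent.P269.Vir.Rk

/-!
# The functions vanishing on the curve and the obstruction space, seen on the abstract curve
-/

set_option linter.unusedSectionVars false

namespace Vale.Agent.P269

open Set Function Topology Filter Module Vir Base
open MvPolynomial hiding funext

namespace Vir

section Tens

variable {X Z : Type} {P : Submodule ℂ (Z → ℂ)} {H : Submodule ℂ (X → ℂ)} {f : Z → X → ℂ}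

variable (P H) in
/-- functions of two variables that lie in `P` and in `H` separately -/
def Bi : Submodule ℂ (Z → X → ℂ) where
  carrier := {f | (∀ z, f z ∈ H) ∧ ∀ y, (fun z => f z y) ∈ P}
  add_mem' a b := ⟨fun z => add_mem (a.1 z) (b.1 z), fun y => add_mem (a.2 y) (b.2 y)⟩
  zero_mem' := ⟨fun _ => zero_mem _, fun _ => zero_mem _⟩
  smul_mem' _ _ a := ⟨fun z => H.smul_mem _ (a.1 z), fun y => P.smul_mem _ (a.2 y)⟩

/-- products of functions of one variable -/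
def tens : (Z → ℂ) →ₗ[ℂ] (X → ℂ) →ₗ[ℂ] Z → X → ℂ :=
  LinearMap.mk₂ ℂ (fun p s z y => p z * s y) (fun _ _ _ => funext₂ fun _ _ => add_mul _ _ _)
    (fun _ _ _ => funext₂ fun _ _ => mul_assoc _ _ _) (fun _ _ _ => funext₂ fun _ _ => mul_add _ _ _)
    fun _ _ _ => funext₂ fun _ _ => mul_left_comm _ _ _

theorem tens_mem {p : Z → ℂ} {s : X → ℂ} (hp : p ∈ P) (hs : s ∈ H) : tens p s ∈ Bi P H :=
  ⟨fun z => H.smul_mem (p z) hs, fun y =>
    (congrArg (· ∈ P) (funext fun _ => mul_comm _ _)).mp (P.smul_mem (s y) hp)⟩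

variable [FiniteDimensional ℂ P]

theorem dual_mem (h : f ∈ Bi P H) (φ : P →ₗ[ℂ] ℂ) : (fun y => φ ⟨_, h.2 y⟩) ∈ H := by
  have : φ ∈ Submodule.span ℂ (range fun z => LinearMap.proj z ∘ₗ P.subtype) :=
    FiniteDimensional.mem_span_of_iInf_ker_le_ker fun p hp => by
      rw [show p = 0 from Subtype.ext (funext fun z => (Submodule.mem_iInf _).1 hp z)]
      exact zero_mem _
  induction this using Submodule.span_induction with
  | mem _ a => obtain ⟨z, rfl⟩ := a; exact h.1 z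
  | zero => exact zero_mem _
  | add _ _ _ _ a b => exact add_mem a b
  | smul c _ _ a => exact H.smul_mem c a

theorem eq_sum_tens {n : Type} [Fintype n] (b : Basis n ℂ P) (h : f ∈ Bi P H) :
    f = ∑ i, tens (b i).1 fun y => b.coord i ⟨_, h.2 y⟩ :=
  funext₂ fun z y => by
    have := congrFun (congrArg Subtype.val (b.sum_repr ⟨_, h.2 y⟩)) z
    simp only [Submodule.coe_sum, Finset.sum_apply, Submodule.coe_smul, Pi.smul_apply,
      smul_eq_mul] at this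
    simp only [Finset.sum_apply]
    exact this.symm.trans (Finset.sum_congr rfl fun i _ => mul_comm _ _)

theorem Bi_le : Bi P H ≤ Submodule.map₂ tens P H := fun _ h => by
  rw [eq_sum_tens (finBasis ℂ P) h]
  exact Submodule.sum_mem _ fun i _ => Submodule.apply_mem_map₂ _ (finBasis ℂ P i).2 (dual_mem h _)

theorem mem_span_tens (h1 : ∀ z, f z ∈ H) (h2 : ∀ y, (fun z => f z y) ∈ P) :
    f ∈ Submodule.span ℂ {g : Z → X → ℂ | ∃ p ∈ P, ∃ s ∈ H, g = fun z y => p z * s y} := by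
  have := Bi_le (⟨h1, h2⟩ : f ∈ Bi P H)
  rw [Submodule.map₂_eq_span_image2] at this
  refine Submodule.span_mono ?_ this
  exact fun _ ⟨p, a, s, b, e⟩ => ⟨p, a, s, b, e.symm⟩

variable (P H) in
/-- the coordinates in a basis of `P` -/
noncomputable def biEquiv : Bi P H ≃ₗ[ℂ] Fin (finrank ℂ P) → H :=
  LinearEquiv.ofBijective
    { toFun := fun f i => ⟨_, dual_mem f.2 ((finBasis ℂ P).coord i)⟩
      map_add' := fun f g => funext fun i => Subtype.ext (funext fun y =>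
        map_add ((finBasis ℂ P).coord i) ⟨_, f.2.2 y⟩ ⟨_, g.2.2 y⟩)
      map_smul' := fun c f => funext fun i => Subtype.ext (funext fun y =>
        map_smul ((finBasis ℂ P).coord i) c ⟨_, f.2.2 y⟩) }
    ⟨fun f g e => Subtype.ext ((eq_sum_tens (finBasis ℂ P) f.2).trans ((Finset.sum_congr rfl
      fun i _ => congrArg _ (congrArg Subtype.val (congrFun e i))).trans
        (eq_sum_tens (finBasis ℂ P) g.2).symm)), fun s =>
      ⟨⟨∑ i, _, Submodule.sum_mem _ fun i _ => tens_mem (finBasis ℂ P i).2 (s i).2⟩, funext fun i =>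
        Subtype.ext (funext fun y => by
          change (finBasis ℂ P).coord i ⟨_, _⟩ = _
          rw [show (⟨_, _⟩ : P) = ∑ i, (s i).1 y • finBasis ℂ P i from Subtype.ext (funext fun z => by
            simp [tens, mul_comm])]
          simp [Finsupp.single_apply])⟩⟩

instance [FiniteDimensional ℂ H] : FiniteDimensional ℂ (Bi P H) := (biEquiv P H).symm.finiteDimensional

theorem finrank_Bi [FiniteDimensional ℂ H] : finrank ℂ (Bi P H) = finrank ℂ P * finrank ℂ H := by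
  rw [(biEquiv P H).finrank_eq, finrank_pi_fintype]
  simp

end Tens

/-- rank-nullity for the restriction of a linear map to a subspace -/
theorem finrank_map_add {E G : Type} [AddCommGroup E] [Module ℂ E] [AddCommGroup G] [Module ℂ G]
    (T : E →ₗ[ℂ] G) {U W : Submodule ℂ E} [FiniteDimensional ℂ U] (h : ∀ f, f ∈ W ↔ f ∈ U ∧ T f = 0) :
    finrank ℂ (U.map T) + finrank ℂ W = finrank ℂ U := by
  rw [← LinearMap.finrank_range_add_finrank_ker (T.domRestrict U), LinearMap.range_domRestrict,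
    LinearMap.ker_domRestrict, show W = U ⊓ LinearMap.ker T from Submodule.ext h,
    ← (Submodule.comapSubtypeEquivOfLe (inf_le_left : U ⊓ LinearMap.ker T ≤ U)).finrank_eq,
    Submodule.comap_inf, Submodule.comap_subtype_self, top_inf_eq]

theorem PD.ext' {J K Z : Type} {Θ : J → Type} [∀ j, AddCommGroup (Θ j)] [∀ j, Module ℂ (Θ j)]
    {d d' : PD K Z Θ} (h1 : d.tv = d'.tv) (h2 : d.D = d'.D) (h3 : d.tot = d'.tot) : d = d' := by
  cases d; cases d'; cases h1; cases h2; cases h3; rfl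

theorem prod_pow_pow {G ι J : Type} [CommMonoid G] [Fintype ι] [Fintype J] (t : ι → G)
    (a : J → ι → ℕ) (β : J → ℕ) (r : ι → ℕ) : (∏ j, (∏ i, t i ^ a j i) ^ β j) * ∏ i, t i ^ r i =
      ∏ i, t i ^ (∑ j, β j * a j i + r i) := by
  simp only [pow_add, Finset.prod_mul_distrib, ← Finset.prod_pow_eq_pow_sum, ← Finset.prod_pow,
    ← pow_mul, mul_comm (β _)]
  rw [Finset.prod_comm]

theorem prod_pow_pred {G J : Type} [CommMonoid G] [Fintype J] (t : J → G) {β : J →₀ ℕ} {j : J}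
    (h : β j ≠ 0) : (∏ i, t i ^ (β - Finsupp.single j 1 : J →₀ ℕ) i) * t j = ∏ i, t i ^ β i := by
  classical
  rw [← Finset.mul_prod_erase _ _ (Finset.mem_univ j), ← Finset.mul_prod_erase _ _ (Finset.mem_univ j),
    mul_right_comm, ← pow_succ, Finsupp.tsub_apply, Finsupp.single_eq_same,
    Nat.sub_add_cancel (Nat.pos_of_ne_zero h)]
  exact congrArg _ (Finset.prod_congr rfl fun i hi => by
    rw [Finsupp.tsub_apply, Finsupp.single_eq_of_ne (Finset.ne_of_mem_erase hi), Nat.sub_zero])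

end Vir

variable {S Λ R J K ι ν κ α : Type} [Fintype S] [Fintype Λ] [Fintype R] [Fintype J] [Fintype K]
  [Fintype ι] [DecidableEq ι] [Fintype ν] [Fintype κ] {ch : Ch ι J} {F : Fam S Λ R J K}
  {e : K → ι → ℕ} {σ : K → Finset (J →₀ ℕ)} {ℓ : R → ι → ℤ} {K₀ : Set K} {l : Filter α}
  {x x₀ : ch.WF ν κ Λ}

namespace Ch

variable (ch e) in
/-- the degree of the homogenising factor -/
def rst (k : K) (β : J →₀ ℕ) : ι → ℕ := fun i => e k i - ∑ j, β j * ch.b j i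

variable (ch e) in
/-- the degree of a monomial of a homogenised equation -/
def nk (k : K) (β : J →₀ ℕ) : ι → ℕ := fun i => ∑ j, β j * ch.a (some j) i + ch.rst e k β i

theorem cast_nk (hF : F.Inv) (h : ch.Fits F e) (hℓ : ch.HasWt F ℓ) {k : K} {β : J →₀ ℕ}
    (hβ : β ∈ (F.G k).support) (i : ι) : (ch.nk e k β i : ℤ) = F.dk ℓ k i + e k i := by
  have : ∑ j, (β j : ℤ) * ch.a (some j) i - ∑ j, (β j : ℤ) * ch.b j i = F.dk ℓ k i := by
    simp only [← Finset.sum_sub_distrib, ← mul_sub, hℓ _ i, Fam.dk, ← hF.hom k β hβ, Finset.mul_sum,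
      Finset.sum_mul, mul_assoc]
    exact Finset.sum_comm
  simp only [nk, rst, Nat.cast_add, Nat.cast_sub (h.le k β hβ i), Nat.cast_sum, Nat.cast_mul]
  linarith

theorem nk_ne (h : ch.Fits F e) (ha : ∀ l, ch.a l ≠ 0) (k : K) (β : J →₀ ℕ) : ch.nk e k β ≠ 0 :=
  fun a => h.ne k (funext fun i => by
    have b := fun i => Nat.add_eq_zero_iff.1 (congrFun a i)
    have : ∀ j, β j = 0 := fun j => by_contra fun c => ha (some j) (funext fun i =>
      (mul_eq_zero.1 (Finset.sum_eq_zero_iff.1 (b i).1 j (Finset.mem_univ _))).resolve_left c)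
    simpa [rst, this] using (b i).2)

theorem chr_nk (hF : F.Inv) (h : ch.Fits F e) (hℓ : ch.HasWt F ℓ) {k : K} {β : J →₀ ℕ}
    (hβ : β ∈ (F.G k).support) {t : ι → ℂ} (ht : ∀ i, t i ≠ 0) :
    (∏ j, chr (ch.a (some j)) t ^ β j) * chr (ch.rst e k β) t =
      (∏ i, t i ^ F.dk ℓ k i) * chr (e k) t := by
  simp only [chr, prod_pow_pow, ← Finset.prod_mul_distrib]
  exact Finset.prod_congr rfl fun i _ => by
    rw [← zpow_natCast, ← zpow_natCast, ← zpow_add₀ (ht i), ← cast_nk hF h hℓ hβ]; rfl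

theorem zp_ne {t : ι → ℂ} (ht : ∀ i, t i ≠ 0) (c : ι → ℤ) : ∏ i, t i ^ c i ≠ 0 :=
  Finset.prod_ne_zero_iff.2 fun i _ => zpow_ne_zero _ (ht i)

theorem evZ_tz (hF : F.Inv) (h : ch.Fits F e) (hℓ : ch.HasWt F ℓ) {t : ι → ℂ} (ht : ∀ i, t i ≠ 0)
    (z : ch.Pt) {f : ch.P K} (hf : f ∈ ch.polF F e) :
    evZ z f = PD.scF (fun j => chr (ch.b j) t) (fun j => ∏ i, t i ^ ch.wd j i)
      (fun k => chr (e k) t) (fun k => ∏ i, t i ^ F.dk ℓ k i) (evZ (tz t z) f) := by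
  have key : ∀ {Z : Type} {T : Set (ch.Pt → Z → ℂ)} {c : ℂ}, c ≠ 0 →
      (∀ g ∈ T, ∀ m, g (tz t z) m = c * g z m) → ∀ g ∈ Submodule.span ℂ T, ∀ m,
        g z m = g (tz t z) m / c := fun hc a g hg m => by
    induction hg using Submodule.span_induction with
    | mem g b => rw [a g b, mul_div_cancel_left₀ _ hc]
    | zero => simp
    | add _ _ _ _ a b => simp [a, b, add_div]
    | smul _ _ _ a => simp [a, mul_div_assoc]
  refine Prod.ext (funext₂ fun j => key (mul_ne_zero (mul_ne_zero (zp_ne ht _) (chr_ne_zero ht))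
    (chr_ne_zero ht)) ?_ _ (hf.1 j trivial)) (funext₂ fun k => key (mul_ne_zero (zp_ne ht _)
      (chr_ne_zero ht)) ?_ _ (hf.2 k trivial))
  · rintro _ ⟨a, b, μ, y, rfl⟩ m
    simp only [tz, Base.val_smul, _root_.smul_apply, smul_eq_mul, Cv.chr_wd ht]
    ring
  · rintro _ ⟨β, hβ, v, y, μ, rfl⟩ ζ
    simp only [tz, Base.val_smul, _root_.smul_apply, smul_eq_mul, Finset.prod_mul_distrib,
      ← chr_nk hF h hℓ hβ ht]
    rw [Fintype.prod_sigma fun s : Σ j, Fin (β j) => chr (ch.a (some s.1)) t]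
    simp only [Fin.prod_const]
    unfold rst
    ring

theorem pd_tz (hF : F.Inv) (h : ch.Fits F e) (hℓ : ch.HasWt F ℓ) {t : ι → ℂ} (ht : ∀ i, t i ≠ 0)
    (z : ch.Pt) : pd F e x z = (pd F e x (tz t z)).sc (fun j => chr (ch.b j) t)
      (fun j => ∏ i, t i ^ ch.wd j i) (fun k => chr (e k) t) (fun k => ∏ i, t i ^ F.dk ℓ k i) := by
  classical
  refine PD.ext' (funext fun j => LinearMap.ext fun m => ?_) (funext₃ fun k ζ j => ?_)
    (funext₂ fun k ζ => ?_)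
  · exact ((congrArg _ (Base.val_smul m t z.1)).trans (inv_mul_cancel_left₀ (chr_ne_zero ht) _)).symm
  · have hom : ∀ y : J → ℂ, eval (fun j => chr (ch.a (some j)) t * y j) (hp F e x.1 k ζ (t • z.1)) =
        (∏ i, t i ^ F.dk ℓ k i) * chr (e k) t * eval y (hp F e x.1 k ζ z.1) := fun y => by
      rw [eval_hp, eval_hp, Finset.mul_sum]
      refine Finset.sum_congr rfl fun β hβ => ?_
      simp only [← chr_nk hF h hℓ hβ ht, ← val_pw, Base.val_smul, mul_pow, Finset.prod_mul_distrib]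
      unfold rst
      ring
    have a := hasDerivAt_eval (hp F e x.1 k ζ (t • z.1))
      (fun j => chr (ch.a (some j)) t * yv x.2 z j (pwT ζ j))
      fun i => chr (ch.a (some i)) t * (Pi.single j 1 : J → ℂ) i
    simp only [mul_left_comm _ (chr _ t), ← mul_add, hom] at a
    have b := a.unique ((hasDerivAt_eval (hp F e x.1 k ζ z.1) (fun j => yv x.2 z j (pwT ζ j))
      (Pi.single j 1)).const_mul _)
    rw [Finset.sum_eq_single j (fun i _ e => by simp [e]) (by simp),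
      Finset.sum_eq_single j (fun i _ e => by simp [e]) (by simp), Pi.single_eq_same, mul_one,
      mul_one] at b
    refine ((div_eq_iff (div_ne_zero (mul_ne_zero (zp_ne ht _) (chr_ne_zero ht))
      (mul_ne_zero (zp_ne ht _) (chr_ne_zero ht)))).2 ?_).symm
    rw [← Cv.chr_wd ht, ← mul_div_assoc, eq_div_iff (chr_ne_zero ht), mul_comm, mul_comm (PD.D _ _ _ _)]
    exact b
  · refine ((div_eq_iff (chr_ne_zero ht)).2 ?_).symm
    simp only [pd, tz, ← val_pw, Base.val_smul, mul_comm]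

theorem tz_inv {t : ι → ℂ} (ht : ∀ i, t i ≠ 0) (z : ch.Pt) : tz t⁻¹ (tz t z) = z :=
  Prod.ext (Cv.Dict.inv_smul ht _) (funext fun l => by
    change _ • _ • _ = _
    rw [smul_smul, ← chr_mul, show t⁻¹ * t = 1 from funext fun i => inv_mul_cancel₀ (ht i), chr_one,
      one_smul])

theorem D_eq (z : ch.Pt) (k : K) (ζ : ch.Zt) (j : J) : (pd F e x z).D k ζ j =
    ∑ β ∈ (F.G k).support, (eval x.1 (coeff β (F.G k)) * β j) * ((∏ i, yv x.2 z i (pwT ζ i) ^
      (β - Finsupp.single j 1 : J →₀ ℕ) i) * val (pw ζ (ch.rst e k β)) z.1) := by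
  simp only [pd, hp, map_sum, pderiv_monomial, eval_monomial,
    Finsupp.prod_fintype _ _ fun _ => pow_zero _, val_pw, rst]
  exact Finset.sum_congr rfl fun _ _ => by ring

open Cv

variable {X : Type} [TopologicalSpace X] [T2Space X] [CompactSpace X] {Q : RS X}
  {N : Finset (X × X)} {A : ι → LB Q} {π : X → V ch.M} {u : X → ∀ l, ch.E l →L[ℂ] ℂ}
  {p : Mk ν κ → X} {ξ : X → ℂ} {s : J → X → ℂ} {f : ch.P K}

theorem chiN_bz (hx : Cr N A x.2 π u p ξ) (c : ι → ℤ) : chiN N (bz A c) = ch.eu c := by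
  simp only [chiN, eu, deg_bz, hx.deg_eq, hx.gen_eq]

theorem mem_vanM_iff (hF : F.Inv) (h : ch.Fits F e) (hx : Cr N A x.2 π u p ξ) :
    f ∈ vanM F e x ↔ f ∈ ch.polF F e ∧ resC π u f = 0 := by
  refine mem_vanM.trans (and_congr_right fun hf => ⟨fun a => ext_evG fun y => a _ (hx.gr y),
    fun a z hz => ?_⟩)
  obtain ⟨y, t, b, rfl⟩ := hx.mem_gr.1 hz
  obtain ⟨ℓ, hℓ⟩ := h.wt
  change evZ (tz t (π y, u y)) f = 0
  rw [evZ_tz hF h hℓ (t := t⁻¹) (fun i => inv_ne_zero (b i)) _ hf, tz_inv b, ← evG_resC, a]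
  exact Prod.ext (funext₂ fun _ _ => zero_div _) (funext₂ fun _ _ => zero_div _)

theorem cd_Im (y : X) :
    (cd F e K₀ x A π u s).Im y = (pd F e x (π y, u y)).Im pwT F.mov := rfl

theorem mem_obsM_iff (hF : F.Inv) (h : ch.Fits F e) (hx : Cr N A x.2 π u p ξ) :
    f ∈ obsM F e x ↔
      f ∈ ch.polF F e ∧ ∀ y, evG y (resC π u f) ∈ (cd F e K₀ x A π u s).Im y := by
  simp only [cd_Im, evG_resC]
  refine mem_obsM.trans (and_congr_right fun hf => ⟨fun a y => a _ (hx.gr y), fun a z hz => ?_⟩)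
  obtain ⟨y, t, b, rfl⟩ := hx.mem_gr.1 hz
  obtain ⟨ℓ, hℓ⟩ := h.wt
  have c : ∀ i, t⁻¹ i ≠ 0 := fun i => inv_ne_zero (b i)
  change evZ (tz t (π y, u y)) f ∈ (pd F e x (tz t (π y, u y))).Im _ _
  rw [evZ_tz hF h hℓ c _ hf, pd_tz hF h hℓ c, tz_inv b]
  exact PD.sc_mem (fun _ => chr_ne_zero c) (fun _ => zp_ne c _) (a y)

theorem PP_add_le {M : ι → ℕ} (π : X → V M) (a b : ι → ℕ) : PP π (a + b) ≤ PP π a * PP π b := by
  rw [PP, Pol_eq_span, Submodule.map_span, Submodule.span_le]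
  rintro _ ⟨_, ⟨l, rfl⟩, rfl⟩
  refine (congrArg (· ∈ PP π a * PP π b) (funext fun y => ?_)).mp (Submodule.mul_mem_mul
    ⟨_, prod_lin_mem fun s => l ⟨s.1, Fin.castAdd (b s.1) s.2⟩, rfl⟩
    ⟨_, prod_lin_mem fun s => l ⟨s.1, Fin.natAdd (a s.1) s.2⟩, rfl⟩)
  simp only [Pi.mul_apply, LinearMap.funLeft_apply, Fintype.prod_sigma, ← Finset.prod_mul_distrib]
  exact Finset.prod_congr rfl fun i _ =>
    (Fin.prod_univ_add (a := a i) (b := b i) fun k => l ⟨i, k⟩ (π y i)).symm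

theorem PP_sum_le {M : ι → ℕ} (π : X → V M) {β : Type} (T : Finset β) (d : β → ι → ℕ) :
    PP π (∑ b ∈ T, d b) ≤ ∏ b ∈ T, PP π (d b) := by
  classical
  induction T using Finset.induction_on with
  | empty =>
    intro s hs
    obtain ⟨μ, a⟩ := mem_PP.1 hs
    exact Submodule.mem_one.2 ⟨μ 0, funext fun y =>
      (congrArg μ (funext fun s => s.2.elim0)).trans (a y).symm⟩
  | insert i T hi ih =>
    rw [Finset.prod_insert hi, Finset.sum_insert hi]
    exact (PP_add_le _ _ _).trans (mul_le_mul' le_rfl ih)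

theorem bz_nat (A : ι → LB Q) (n : ι → ℕ) : (bz A fun i => n i) = ∏ i, A i ^ n i := by
  simp only [bz, zpow_natCast]

theorem bz_nk (hF : F.Inv) (h : ch.Fits F e) (hℓ : ch.HasWt F ℓ) {k : K} {β : J →₀ ℕ}
    (hβ : β ∈ (F.G k).support) : (∏ j, (bz A fun i => ch.a (some j) i) ^ β j) *
      (bz A fun i => ch.rst e k β i) = bz A fun i => F.dk ℓ k i + e k i := by
  simp only [bz_nat, prod_pow_pow, ← cast_nk hF h hℓ hβ, nk]

theorem bz_wd (j : J) :
    bz A (ch.wd j) * (bz A fun i => ch.b j i) = bz A fun i => ch.a (some j) i := by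
  rw [← Cv.bz_add]
  exact congrArg _ (funext fun i => sub_add_cancel _ _)

/-- restriction to the curve -/
def rs {P Z X : Type} (φ : X → P) : (P → Z → ℂ) →ₗ[ℂ] Z → X → ℂ where
  toFun g z y := g (φ y) z
  map_add' _ _ := rfl
  map_smul' _ _ := rfl

instance fin_PiT (j : J) : FiniteDimensional ℂ (ch.PiT j) := by
  let T : (ch.Th j →L[ℂ] ℂ) →ₗ[ℂ] (ch.Th j →L[ℂ] ℂ) →ₗ[ℂ] ch.Th j × ch.Th j → ℂ :=
    LinearMap.mk₂ ℂ (fun a b m => a m.1 * b m.2) (fun _ _ _ => funext fun _ => add_mul _ _ _)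
      (fun _ _ _ => funext fun _ => mul_assoc _ _ _) (fun _ _ _ => funext fun _ => mul_add _ _ _)
      fun _ _ _ => funext fun _ => mul_left_comm _ _ _
  refine Submodule.finiteDimensional_of_le (S₂ := LinearMap.range (TensorProduct.lift T))
    (Submodule.span_le.2 ?_)
  rintro _ ⟨a, rfl⟩
  exact ⟨a.1 ⊗ₜ a.2, rfl⟩

open Pointwise in
theorem map_fst (ha : ∀ l, ch.a l ≠ 0) (hx : Cr N A x.2 π u p ξ) (j : J) :
    (Submodule.span ℂ {f : ch.Pt → ch.Th j × ch.Th j → ℂ | ∃ (l l' : ch.Th j →L[ℂ] ℂ) (μ : ch.Th j)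
      (y : ch.E (some j)), f = fun z m => l m.1 * l' m.2 * val μ z.1 * z.2 (some j) y}).map
      (rs fun y => (π y, u y)) = Bi (ch.PiT j) (H0 N (bz A fun i => ch.a (some j) i + ch.b j i)) := by
  rw [Submodule.map_span]
  refine le_antisymm (Submodule.span_le.2 ?_) (Bi_le.trans ((Submodule.map₂_le_map₂_right
    (q₂ := Submodule.span ℂ ((PP π (ch.b j) : Set (X → ℂ)) * (PP π (ch.a (some j)) : Set (X → ℂ)))) ?_).trans ?_))
  · rintro _ ⟨_, ⟨a, b, μ, y, rfl⟩, rfl⟩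
    have := H0.mul_mem (hx.u_mem _ y) (Cv.val_mem hx.par.sec μ)
    rw [← Cv.bz_add] at this
    exact (congrArg (· ∈ Bi _ _) (funext₂ fun m y => by simp [tens, rs]; ring)).mp
      (tens_mem (Submodule.subset_span ⟨(a, b), rfl⟩ : _ ∈ ch.PiT j) this)
  · rw [← Submodule.mul_eq_span_mul_set, mul_comm]
    exact (hx.par.le_PP hx.cur (a := ch.a (some j) + ch.b j) fun a => ha _ (add_eq_zero.1 a).1).trans
      (PP_add_le _ _ _)
  · rw [PiT, Submodule.map₂_span_span]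
    refine Submodule.span_mono ?_
    rintro _ ⟨_, ⟨a, rfl⟩, _, ⟨_, b, _, c, rfl⟩, rfl⟩
    obtain ⟨μ, b⟩ := mem_PP.1 b
    obtain ⟨μ', c⟩ := mem_PP.1 c
    exact ⟨_, ⟨a.1, a.2, μ, x.2.Q _ μ', rfl⟩, funext₂ fun m y => by
      simp [tens, rs, hx.u_Q, b, c, mul_assoc]⟩

open Classical in
variable (ch F e) in
/-- the polynomials in the tests of the equation `k` -/
noncomputable def PiK (k : K) : Submodule ℂ (ch.Zt → ℂ) := if F.G k = 0 then ⊥ else ch.PiZ (e k)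

instance fin_PiK (k : K) : FiniteDimensional ℂ (ch.PiK F e k) :=
  Submodule.finiteDimensional_of_le (S₂ := ch.PiZ (e k)) (by
    unfold PiK
    split_ifs
    exacts [bot_le, le_rfl])

theorem PiK_eq {k : K} {β : J →₀ ℕ} (hβ : β ∈ (F.G k).support) : ch.PiK F e k = ch.PiZ (e k) :=
  if_neg (support_nonempty.1 ⟨β, hβ⟩)

open Pointwise in
theorem map_snd (hF : F.Inv) (h : ch.Fits F e) (hℓ : ch.HasWt F ℓ) (ha : ∀ l, ch.a l ≠ 0)
    (hx : Cr N A x.2 π u p ξ) (k : K) :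
    (Submodule.span ℂ {f : ch.Pt → ch.Zt → ℂ | ∃ β ∈ (F.G k).support,
      ∃ (v : ∀ s : Σ i, Fin (e k i), Fin (ch.M s.1) → ℂ) (y : ∀ s : Σ j, Fin (β j), ch.E (some s.1))
        (μ : Tens ch.M (ch.rst e k β)),
        f = fun z ζ => (∏ s, ζ s.1 (v s)) * (∏ s, z.2 (some s.1) (y s)) * val μ z.1}).map
      (rs fun y => (π y, u y)) = Bi (ch.PiK F e k) (H0 N (bz A fun i => F.dk ℓ k i + e k i)) := by
  rw [Submodule.map_span]
  refine le_antisymm (Submodule.span_le.2 ?_) ?_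
  · rintro _ ⟨_, ⟨β, hβ, v, y, μ, rfl⟩, rfl⟩
    have := H0.mul_mem (H0.prod_mem (T := Finset.univ) fun s _ => hx.u_mem _ (y s))
      (Cv.val_mem hx.par.sec μ)
    rw [Fintype.prod_sigma fun s : Σ j, Fin (β j) => bz A fun i => ch.a (some s.1) i] at this
    simp only [Fin.prod_const, bz_nk hF h hℓ hβ] at this
    rw [PiK_eq hβ]
    exact (congrArg (· ∈ Bi _ _) (funext₂ fun m y => by simp [tens, rs, mul_assoc])).mp
      (tens_mem (Submodule.subset_span ⟨v, rfl⟩ : _ ∈ ch.PiZ (e k)) this)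
  by_cases h0 : F.G k = 0
  · rw [PiK, if_pos h0]
    exact Bi_le.trans ((Submodule.map₂_bot_left _ _).le.trans bot_le)
  obtain ⟨β, hβ⟩ := support_nonempty.2 h0
  rw [PiK_eq hβ]
  refine Bi_le.trans ((Submodule.map₂_le_map₂_right (q₂ := Submodule.span ℂ
    ((∏ s : Σ j, Fin (β j), (PP π (ch.a (some s.1)) : Set (X → ℂ))) * (PP π (ch.rst e k β) : Set (X → ℂ))))
    ?_).trans ?_)
  · simp only [← Submodule.span_mul_span, ← Submodule.prod_span, Submodule.span_eq,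
      ← cast_nk hF h hℓ hβ]
    refine (hx.par.le_PP hx.cur (nk_ne h ha k β)).trans ?_
    rw [show ch.nk e k β = (∑ s : Σ j, Fin (β j), ch.a (some s.1)) + ch.rst e k β from
      funext fun i => by simp [nk, Fintype.sum_sigma]]
    exact (PP_add_le _ _ _).trans (mul_le_mul' (PP_sum_le _ _ _) le_rfl)
  · rw [PiZ, Submodule.map₂_span_span]
    refine Submodule.span_mono ?_
    rintro _ ⟨_, ⟨v, rfl⟩, _, ⟨_, b, _, c, rfl⟩, rfl⟩
    obtain ⟨w, d, rfl⟩ := (Set.mem_fintype_prod _ _).1 b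
    choose μ b using fun s => mem_PP.1 (d s)
    obtain ⟨μ', c⟩ := mem_PP.1 c
    exact ⟨_, ⟨β, hβ, v, fun s => x.2.Q _ (μ s), μ', rfl⟩, funext₂ fun m y => by
      simp [tens, rs, hx.u_Q, b, c, mul_assoc]⟩

theorem map_polF (hF : F.Inv) (h : ch.Fits F e) (hℓ : ch.HasWt F ℓ) (ha : ∀ l, ch.a l ≠ 0)
    (hx : Cr N A x.2 π u p ξ) : (ch.polF F e).map (resC π u) = ch.Tg F e ℓ N A := by
  refine le_antisymm ?_ fun g hg => ?_
  · rintro _ ⟨f, hf, rfl⟩
    have a := fun j => (map_fst ha hx j).le ⟨_, hf.1 j trivial, rfl⟩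
    have b := fun k => (map_snd hF h hℓ ha hx k).le ⟨_, hf.2 k trivial, rfl⟩
    exact ⟨fun j => (a j).1, fun j => (a j).2, fun k => (b k).1, fun k => (b k).2⟩
  · choose f1 a a' using fun j => (map_fst ha hx j).ge (x := g.1 j) ⟨hg.1 j, hg.2.1 j⟩
    choose f2 b b' using fun k => (map_snd hF h hℓ ha hx k).ge (x := g.2 k)
      ⟨hg.2.2.1 k, hg.2.2.2 k⟩
    exact ⟨(f1, f2), ⟨fun j _ => a j, fun k _ => b k⟩, Prod.ext (funext a') (funext b')⟩

/-- the components of `Tg` -/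
noncomputable def tgEquiv : ch.Tg F e ℓ N A ≃ₗ[ℂ]
    (∀ j, Bi (ch.PiT j) (H0 N (bz A fun i => ch.a (some j) i + ch.b j i))) ×
      ∀ k, Bi (ch.PiK F e k) (H0 N (bz A fun i => F.dk ℓ k i + e k i)) where
  toFun g := (fun j => ⟨g.1.1 j, g.2.1 j, g.2.2.1 j⟩, fun k => ⟨g.1.2 k, g.2.2.2.1 k, g.2.2.2.2 k⟩)
  invFun g := ⟨(fun j => (g.1 j).1, fun k => (g.2 k).1), fun j => (g.1 j).2.1, fun j => (g.1 j).2.2,
    fun k => (g.2 k).2.1, fun k => (g.2 k).2.2⟩
  map_add' _ _ := rfl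
  map_smul' _ _ := rfl
  left_inv _ := rfl
  right_inv _ := rfl

theorem finrank_Tg (hF : F.Inv) (h : ch.Fits F e) (hℓ : ch.HasWt F ℓ) (ha : ∀ l, ch.a l ≠ 0)
    (hx : Cr N A x.2 π u p ξ) : (finrank ℂ (ch.Tg F e ℓ N A) : ℤ) =
      ∑ j, finrank ℂ (ch.PiT j) * ch.eu (fun i => ch.a (some j) i + ch.b j i) +
        ∑ k, finrank ℂ (ch.PiK F e k) * ch.eu fun i => F.dk ℓ k i + e k i := by
  rw [tgEquiv.finrank_eq, finrank_prod, finrank_pi_fintype, finrank_pi_fintype, Nat.cast_add,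
    Nat.cast_sum, Nat.cast_sum]
  refine congrArg₂ (· + ·) (Finset.sum_congr rfl fun j _ => ?_) (Finset.sum_congr rfl fun k _ => ?_)
  · rw [finrank_Bi, Nat.cast_mul]
    exact congrArg _ (hx.par.finrank hx.cur (a := ch.a (some j) + ch.b j)
      fun a => ha _ (add_eq_zero.1 a).1)
  rw [finrank_Bi, Nat.cast_mul]
  by_cases h0 : F.G k = 0
  · rw [show ch.PiK F e k = ⊥ from if_pos h0, finrank_bot, Nat.cast_zero, zero_mul, zero_mul]
  obtain ⟨β, hβ⟩ := support_nonempty.2 h0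
  rw [← funext (cast_nk hF h hℓ hβ)]
  exact congrArg _ (hx.par.finrank hx.cur (nk_ne h ha k β))

theorem exists_rank_van (hF : F.Inv) (h : ch.Fits F e) (ha : ∀ l, ch.a l ≠ 0) :
    ∃ v : ℕ, ∀ x : ch.WF ν κ Λ, x.2 ∈ ch.base (Mk ν κ) → finrank ℂ (vanM F e x) = v := by
  obtain ⟨ℓ, hℓ⟩ := h.wt
  refine ⟨(finrank ℂ (ch.polF F e) - (∑ j, finrank ℂ (ch.PiT j) *
    ch.eu (fun i => ch.a (some j) i + ch.b j i) + ∑ k, finrank ℂ (ch.PiK F e k) *
      ch.eu fun i => F.dk ℓ k i + e k i) : ℤ).toNat, fun x hx => ?_⟩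
  obtain ⟨X, _, _, _, Q, N, A, π, u, p, ξ, hx⟩ := exists_cr hx
  rw [← finrank_Tg hF h hℓ ha hx, ← map_polF hF h hℓ ha hx,
    ← finrank_map_add (resC π u) fun f => mem_vanM_iff (f := f) hF h hx, Nat.cast_add,
    add_sub_cancel_left, Int.toNat_natCast]

theorem cd_ok (hF : F.Inv) (hR : F.Reg K₀) (h : ch.Fits F e) (hℓ : ch.HasWt F ℓ)
    (hx : Cr N A x.2 π u p ξ) (hs : ∀ j, Ind x.2 π u j (s j))
    (hc : ∀ y, (x.1, fun j => s j y) ∈ F.cone) :
    (cd F e K₀ x A π u s).Ok N (fun j => bz A (ch.wd j)) fun k => bz A (F.dk ℓ k) := by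
  refine ⟨fun j _ m => Cv.val_mem hx.par.sec m, fun k ζ j _ => ?_, fun k ζ => ?_, fun y =>
    h.reg hF hR (z := (π y, u y)) (hx.par.ne y) (fun j => LinearMap.ext (hs j y)) (hc y)⟩
  · rw [show (cd F e K₀ x A π u s).D k ζ j = ∑ β ∈ (F.G k).support,
        (eval x.1 (coeff β (F.G k)) * β j) • ((∏ i, (fun y => u y _ (x.2.X i (pwT ζ i))) ^
          (β - Finsupp.single j 1 : J →₀ ℕ) i) * fun y => val (pw ζ (ch.rst e k β)) (π y)) from
      funext fun y => (D_eq _ k ζ j).trans (by simp [yv])]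
    refine Submodule.sum_mem _ fun β hβ => ?_
    by_cases a : β j = 0
    · simp [a]
    have := H0.mul_mem (H0.prod_mem (T := Finset.univ) fun i _ => H0.pow_mem (hx.u_mem _
      (x.2.X i (pwT ζ i))) ((β - Finsupp.single j 1 : J →₀ ℕ) i))
      (Cv.val_mem hx.par.sec (pw ζ (ch.rst e k β)))
    refine Submodule.smul_mem _ _ ((congrArg (_ ∈ H0 N ·) (eq_div_of_mul_eq' ?_)).mp this)
    simp only [cd]
    rw [bz_wd, mul_right_comm, prod_pow_pred _ a, bz_nk hF h hℓ hβ, ← Cv.bz_add]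
    rfl
  · exact (congrArg (· ∈ H0 N _) (funext fun y => val_pw _ _ _)).mp
      (Cv.val_mem hx.par.sec (pw ζ (e k)))

theorem PiZ.pow {a : ι → ℕ} {g : ch.Zt → ℂ} (hg : g ∈ ch.PiZ a) (n : ℕ) :
    g ^ n ∈ ch.PiZ (n • a) := by
  simpa using PiZ.prod (Finset.range n) fun _ _ => hg

theorem dEq_mem (h : ch.Fits F e) (z : ch.Pt) (Y : ∀ j, ch.Th j →ₗ[ℂ] ℂ) (k : K) :
    ((pd F e x z).dEq pwT Y).2 k ∈ ch.PiK F e k := by
  rw [show ((pd F e x z).dEq pwT Y).2 k = ∑ j, ∑ β ∈ (F.G k).support,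
      (MvPolynomial.eval x.1 (coeff β (F.G k)) * β j) • ((∏ i, (fun ζ => yv x.2 z i (pwT ζ i)) ^
        (β - Finsupp.single j 1 : J →₀ ℕ) i) * (fun ζ => Y j (pwT ζ j)) *
          fun ζ => val (pw ζ (ch.rst e k β)) z.1) from funext fun ζ => by
    simp [PD.dEq_snd, D_eq, Finset.sum_mul, mul_assoc, mul_comm (Y _ _)]]
  refine Submodule.sum_mem _ fun j _ => Submodule.sum_mem _ fun β hβ => ?_
  by_cases a : β j = 0
  · simp [a]
  rw [PiK_eq hβ]
  have := PiZ.mul (PiZ.mul (PiZ.prod Finset.univ fun i _ => PiZ.pow (PiZ.pw _ (yv x.2 z i))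
    ((β - Finsupp.single j 1 : J →₀ ℕ) i)) (PiZ.pw _ (Y j)))
    (PiZ.pw (ch.rst e k β) (evL _ z.1).toLinearMap)
  refine Submodule.smul_mem _ _ ((congrArg (_ ∈ ch.PiZ ·) (funext fun i => ?_)).mp this)
  have b := congrArg Multiplicative.toAdd
    (prod_pow_pred (fun j => Multiplicative.ofAdd (ch.b j i)) a)
  simp only [toAdd_mul, toAdd_prod, toAdd_pow, toAdd_ofAdd, smul_eq_mul] at b
  simp only [Pi.add_apply, Finset.sum_apply, Pi.smul_apply, smul_eq_mul, b, rst]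
  exact Nat.add_sub_cancel' (h.le k β hβ i)

theorem kos_mem {j : J} (t Y : ch.Th j →ₗ[ℂ] ℂ) : kos t Y ∈ ch.PiT j :=
  (congrArg (· ∈ ch.PiT j) (funext fun _ => congrArg (· - _) (mul_comm _ _))).mp (sub_mem
    (Submodule.subset_span ⟨(Y.toContinuousLinearMap, t.toContinuousLinearMap), rfl⟩)
    (Submodule.subset_span ⟨(t.toContinuousLinearMap, Y.toContinuousLinearMap), rfl⟩))

theorem map_obsM (hF : F.Inv) (h : ch.Fits F e) (hℓ : ch.HasWt F ℓ) (ha : ∀ l, ch.a l ≠ 0)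
    (hx : Cr N A x.2 π u p ξ) : (obsM F e x).map (resC π u) =
      (cd F e K₀ x A π u s).Ob N (fun j => bz A (ch.wd j)) fun k => bz A (F.dk ℓ k) := by
  have e1 : ∀ j, bz A (ch.wd j) * (cd F e K₀ x A π u s).B j * (cd F e K₀ x A π u s).B j =
      bz A fun i => ch.a (some j) i + ch.b j i := fun j =>
    (congrArg (· * _) (bz_wd j)).trans (Cv.bz_add _ _ _).symm
  have e2 : ∀ k, bz A (F.dk ℓ k) * (cd F e K₀ x A π u s).E k =
      bz A fun i => F.dk ℓ k i + e k i := fun k => (Cv.bz_add _ _ _).symm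
  refine Submodule.ext fun g => ?_
  simp only [CD.mem_Ob, e1, e2]
  refine ⟨?_, fun ⟨a, b, c⟩ => ?_⟩
  · rintro ⟨f, hf, rfl⟩
    have := (map_polF hF h hℓ ha hx).le ⟨f, hf.1, rfl⟩
    exact ⟨this.1, this.2.2.1, ((mem_obsM_iff hF h hx).1 hf).2⟩
  · refine ((map_polF hF h hℓ ha hx).ge (x := g) ⟨a, fun j y => ?_, b, fun k y => ?_⟩).imp
      fun f d => ⟨(mem_obsM_iff hF h hx).2 ⟨d.1, d.2 ▸ c⟩, d.2⟩
    · obtain ⟨Y, -, d⟩ := PD.mem_Im.1 ((cd_Im y).le (c y))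
      exact (congrArg (fun κ : Fib ch.Th K ch.Zt => κ.1 j ∈ ch.PiT j) d).mp (kos_mem _ _)
    · obtain ⟨Y, -, d⟩ := PD.mem_Im.1 ((cd_Im y).le (c y))
      exact (congrArg (fun κ : Fib ch.Th K ch.Zt => κ.2 k ∈ ch.PiK F e k) d).mp (dEq_mem h _ Y k)

theorem finrank_obsM (hF : F.Inv) (hR : F.Reg K₀) (h : ch.Fits F e) (hℓ : ch.HasWt F ℓ)
    (ha : ∀ l, ch.a l ≠ 0) (hx : x ∈ ch.solF ν κ F) :
    (finrank ℂ (obsM F e x) : ℤ) = finrank ℂ (vanM F e x) + ch.rk F ℓ K₀ := by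
  classical
  obtain ⟨X, _, _, _, Q, N, A, π, u, p, ξ, hc⟩ := exists_cr hx.1.2.1
  obtain ⟨s, a, b⟩ := hc.mem_sol.1 hx.2
  have ok := cd_ok (s := s) hF hR h hℓ hc a fun y =>
    ⟨hx.1.1, by simpa using b y 1 fun _ => one_ne_zero⟩
  have : FiniteDimensional ℂ (obsM F e x) := Submodule.finiteDimensional_of_le inf_le_left
  have c := finrank_map_add (resC π u) (U := obsM F e x) (W := vanM F e x) fun f =>
    ⟨fun d => ⟨vanM_le_obsM d, ((mem_vanM_iff hF h hc).1 d).2⟩,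
      fun d => (mem_vanM_iff hF h hc).2 ⟨d.1.1, d.2⟩⟩
  let _ : Fintype (cd F e K₀ x A π u s).mov := Fintype.ofFinite _
  let _ : Fintype (cd F e K₀ x A π u s).K₀ := Fintype.ofFinite _
  have e1 : ∀ j, bz A (ch.wd j) * (cd F e K₀ x A π u s).B j = bz A fun i => ch.a (some j) i := bz_wd
  have d := ok.finrank_Ob hc.par.nd fun j _ => e1 j ▸ (hc.par.numbers hc.cur).2.2 _ (ha _)
  simp only [e1, chiN_bz hc] at d
  rw [← c, map_obsM (K₀ := K₀) (s := s) hF h hℓ ha hc, Nat.cast_add, d, add_comm, rk,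
    Finset.sum_subtype (p := (· ∈ (cd F e K₀ x A π u s).mov)) _ (by simp [cd]),
    Finset.sum_subtype (p := (· ∈ (cd F e K₀ x A π u s).K₀)) (Finset.filter _ _) (by simp [cd])]
  rfl

end Ch

end Vale.Agent.P269
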