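import Vale.Agent.P269.Vir.KP
import Vale.Agent.P269.Spl.Cyc
import Vale.Agent.P269.Prop.TopA

set_option linter.all false

/-!
# The virtual class over a cycle
-/

namespace Vale.Agent.P269

open Set Function Topology Filter Module P291Z Orb

section gen

variable {A W P : Type} [NormedRing A] [NormedAlgebra ℂ A] [NormedAddCommGroup W] [NormedSpace ℂ W]
  [FiniteDimensional ℂ A] [FiniteDimensional ℂ W] {act : A → W → W} {Z S M O : Set W} {d : ℕ}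
  [AddCommGroup P] [Module ℂ P] [TopologicalSpace P]

theorem Cyc.uf (h : Cyc act S M d) : Ch.UF act S := by
  rintro _ ⟨U, hU, rfl⟩ _ ho β β' a b
  have c := h.inter hU Holo.IsAct.mem
  exact (c.eq_fnd ho a).trans (c.eq_fnd ho b).symm

namespace Ch.KD.Dom

variable {D : KD A W P} (h : D.Dom act Z S O)

/-- the fundamental class of a domain -/
noncomputable abbrev fnd (d : ℕ) : BM (Quo act O) := haveI := h.isAct; P269.fnd act O d

theorem isFund (hc : Cyc act O M d) : P269.IsFund act O (h.fnd d) :=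
  haveI := h.isAct; hc.isFund h.orb

theorem fnd_deg (hc : Cyc act O M d) : BM.IsDeg (2 * d) (h.fnd d) := haveI := h.isAct; hc.deg h.orb

variable {k : KP h.sp} {i : k.P.W →ₗ[ℂ] P}

theorem isV_fnd (hc : Cyc act O M d) (hk : h.IsKP k i) :
    D.IsV act Z S (k.vir (Quo.incl act h.sub) (h.fnd d)) := h.isV hk (h.isFund hc)

theorem eq_vir_fnd (hc : Cyc act O M d) (hk : h.IsKP k i) {v : BM (Quo act Z)}
    (hv : D.IsV act Z S v) : v = k.vir (Quo.incl act h.sub) (h.fnd d) :=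
  hv.eq_vir' hc.uf h hk (h.isFund hc)

end Ch.KD.Dom

end gen

namespace Ch

variable {S Λ R J K ι ν κ : Type} [Fintype S] [Fintype Λ] [Fintype R] [Fintype J] [Fintype K]
  [Fintype ι] [DecidableEq ι] [Fintype ν] [Fintype κ] {ch : Ch ι J}

/-- `O` is a domain for `S₀` and a cycle of dimension `d` with smooth part `M`. -/
structure Vd (F : Fam S Λ R J K) (e : K → ι → ℕ) (S₀ O M : Set (ch.WF ν κ Λ)) (d : ℕ) : Prop where
  adm : S₀ ⊆ ch.adm ν κ F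
  inv : Ivt (actF F.toWt) S₀
  dom : Dom F e S₀ O
  cyc : Cyc (actF F.toWt) O M d

variable {F : Fam S Λ R J K} {e : K → ι → ℕ} {K₀ : Set K} {ℓ : R → ι → ℤ}
  {S₀ O M U : Set (ch.WF ν κ Λ)} {d : ℕ}

/-- domains from properness -/
theorem Std.dom_of_prp (h : ch.Std F e K₀ ℓ) (hA : S₀ ⊆ ch.adm ν κ F) (hU : IsOpen U)
    (hi : Ivt (actF F.toWt) (S₀ ∩ U)) (hz : ch.solF ν κ F ∩ S₀ ⊆ U)
    (hp : Holo.Prp (actF F.toWt) (S₀ ∩ U)) (hl : IsLocallyClosed (S₀ ∩ U)) :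
    Dom F e S₀ (S₀ ∩ U ∩ ch.dom ν κ F e) :=
  haveI := isActF_of hi
  haveI := FiniteDimensional.proper ℂ (ch.WF ν κ Λ)
  haveI := hl.locallyCompactSpace
  h.dom hA ⟨U, hU, rfl⟩ (subset_inter inter_subset_right hz) hp.orb

theorem Std.vd (h : ch.Std F e K₀ ℓ) (hA : S₀ ⊆ ch.adm ν κ F) (hS : Ivt (actF F.toWt) S₀)
    (hU : IsOpen U) (hi : Ivt (actF F.toWt) (S₀ ∩ U)) (hz : ch.solF ν κ F ∩ S₀ ⊆ U)
    (hp : Holo.Prp (actF F.toWt) (S₀ ∩ U)) (hc : Cyc (actF F.toWt) (S₀ ∩ U) M d) :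
    Vd F e S₀ (S₀ ∩ U ∩ ch.dom ν κ F e) (M ∩ ch.dom ν κ F e) d := by
  have a := h.dom_of_prp hA hU hi hz hp hc.lc
  obtain ⟨V, b, c⟩ := h.dom_open (ν := ν) (κ := κ)
  have f : ∀ T ⊆ S₀ ∩ U, T ∩ ch.dom ν κ F e = T ∩ V := fun T g => by
    rw [c, ← inter_assoc, inter_eq_left.2 (g.trans (inter_subset_left.trans hA))]
  refine ⟨hA, hS, a, ?_⟩
  have g := a.isAct.mem
  rw [f _ Subset.rfl] at g ⊢
  exact f M hc.sub ▸ hc.inter b g

namespace Vd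

variable (h : Vd F e S₀ O M d)
include h

/-- shrinking -/
theorem inter (hU : IsOpen U) (hz : ch.solF ν κ F ∩ S₀ ⊆ U)
    (hi : ∀ s, IsUnit s → ∀ x ∈ O ∩ U, actF F.toWt s x ∈ U) : Vd F e S₀ (O ∩ U) (M ∩ U) d :=
  have a := h.dom.inter hU hz hi
  ⟨h.adm, h.inv, a, h.cyc.inter hU a.isAct.mem⟩

theorem exists_isKP (hs : ch.Std F e K₀ ℓ) : ∃ (k : KP h.dom.sp) (i : k.P.W →ₗ[ℂ] ch.P K),
    h.dom.IsKP k i ∧ k.r = (ch.rk F ℓ K₀).toNat := hs.exists_isKP' h.adm h.dom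

/-- **the virtual class** -/
theorem virF_eq {k : KP h.dom.sp} {i : k.P.W →ₗ[ℂ] ch.P K} (hk : h.dom.IsKP k i) :
    virF F e S₀ = k.vir (Quo.incl _ h.dom.sub) (h.dom.fnd d) :=
  h.dom.virF_eq hk h.inv h.cyc.uf (h.dom.isFund h.cyc)

variable (hs : ch.Std F e K₀ ℓ) {v : BM (ModS F S₀)}
include hs

theorem isV_iff : IsV F e S₀ v ↔ v = virF F e S₀ :=
  let ⟨_, _, a, _⟩ := h.exists_isKP hs
  ⟨h.dom.eq_virF a h.inv h.cyc.uf (h.dom.isFund h.cyc),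
    fun b => b ▸ h.dom.isV_virF a h.inv (h.dom.isFund h.cyc)⟩

/-- **existence and uniqueness** -/
theorem isVirF_iff : IsVirF F e S₀ v ↔ v = virF F e S₀ :=
  let ⟨_, _, a, _⟩ := h.exists_isKP hs
  (h.dom.isVirF_iff_isV a h.inv).trans (h.isV_iff hs)

theorem nice : Nice (ModS F S₀) := let ⟨_, _, a, _⟩ := h.exists_isKP hs; h.dom.niceZ a

/-- the degree -/
theorem deg : BM.IsDeg (2 * d - 2 * ch.rk F ℓ K₀) (virF F e S₀) := by
  obtain ⟨k, i, a, -⟩ := h.exists_isKP hs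
  rcases eq_empty_or_nonempty (ch.solF ν κ F ∩ S₀) with b | ⟨x, b⟩
  · haveI : IsEmpty (ModS F S₀) := ⟨fun z => (b.le z.out.2).elim⟩
    exact BM_eq_of_isEmpty 0 (virF F e S₀) ▸ isDeg_zero' _
  · rw [h.virF_eq a, ← hs.r_eq a (t := ⟨x, h.dom.sub b⟩) b.1]
    exact KP.vir_deg (h.dom.fnd_deg h.cyc) k _

end Vd

end Ch

end Vale.Agent.P269
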