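import Vale.Agent.P269.Vir.Cyc
import Vale.Agent.P269.Vir.Adm
import Vale.Agent.P269.Spl.An
import Vale.Agent.P269.Glu.Defs

set_option linter.all false

/-!
# The virtual class over the closure of a stratum
-/

namespace Vale.Agent.P269

open Set Function Topology Filter Module P291Z Orb Holo

section gen

variable {A W : Type} [NormedRing A] [NormedAlgebra ℂ A] [NormedAddCommGroup W] [NormedSpace ℂ W]
  [FiniteDimensional ℂ A] [FiniteDimensional ℂ W] {act : A → W → W} {T M O : Set W} {n : ℕ} {x : W}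

theorem LocAn.inter' (h : LocAn T M) (hO : IsOpen O) : LocAn (T ∩ O) (M ∩ O) := fun x => by
  obtain ⟨r, s, g, f, a, b⟩ := h ⟨x, x.2.1⟩
  have c : Continuous (inclusion (inter_subset_left : T ∩ O ⊆ T)) := continuous_inclusion _
  have d : ∀ {B : Type} [NormedAddCommGroup B] [NormedSpace ℂ B] {g : T → B},
      HolAt Subtype.val g ⟨x, x.2.1⟩ → HolAt Subtype.val (fun y => g (inclusion inter_subset_left y)) x :=
    fun e => e.imp fun _ e => ⟨e.1, (c.tendsto x).eventually e.2⟩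
  exact ⟨r, s, _, _, fun i => ⟨d (a i).1, d (a i).2⟩,
    ((c.tendsto x).eventually b).mono fun y e => (and_iff_left y.2.2).trans e⟩

theorem Holo.MfdAt.inter' (h : MfdAt M n x) (hO : IsOpen O) (hx : x ∈ O) : MfdAt (M ∩ O) n x :=
  haveI := FiniteDimensional.complete ℂ W
  h.congr (mem_of_superset (hO.mem_nhds hx) fun _ a => (and_iff_left a).symm)

theorem Holo.Prp.finrank_le [IsAct act univ] (h : Prp act M) (hi : Ivt act M) (hm : MfdAt M n x) :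
    finrank ℂ A ≤ n := by
  haveI : IsAct act M := IsAct.mono inferInstance (subset_univ M) hi
  haveI := FiniteDimensional.complete ℂ A
  refine IsMfd.finrank_le (ι := Sp.val) (t := Sp.of act x hm.1) isExp_expU hm.2 (Sp.holAct _) ?_
  rw [Sp.inf_eq]
  exact (h x hm.1 x hm.1).injective hm.1

end gen

namespace Ch

variable {S Λ R J K ι ν κ : Type} [Fintype S] [Fintype Λ] [Fintype R] [Fintype J] [Fintype K]
  [Fintype ι] [DecidableEq ι] [Fintype ν] [Fintype κ] {ch : Ch ι J}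

/-- `U` is an invariant neighbourhood of the solutions where the action is proper, and free after a
small change of the movable fields. -/
structure Pr (F : Fam S Λ R J K) (U : Set (ch.WF ν κ Λ)) : Prop where
  opn : IsOpen U
  inv : Ivt (actF F.toWt) U
  sol : ch.solF ν κ F ⊆ U
  prp : Prp (actF F.toWt) (ch.baseF ν κ F.B ∩ U)
  den : ∀ y ∈ ch.baseF ν κ F.B ∩ U, y ∈ closure {z | Fre (actF F.toWt) z ∧
    ∃ X, (∀ j ∉ F.mov, X j = y.2.X j) ∧ z = (y.1, W.mk' y.2.Q y.2.p y.2.Ξ X)}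

variable {F : Fam S Λ R J K} {e : K → ι → ℕ} {K₀ : Set K} {ℓ : R → ι → ℤ}
  {Z U : Set (ch.WF ν κ Λ)} {N : ℕ} {x : ch.WF ν κ Λ}

theorem Lev.base (h : Lev F Z) : Z ⊆ ch.baseF ν κ F.B := fun _ a => (h.adm a).1

theorem Lev.ivt_clo (h : Lev F Z) (hF : F.Inv) :
    Ivt (actF F.toWt) (closure Z ∩ ch.baseF ν κ F.B) := fun _ hs _ a =>
  ⟨map_mem_closure (continuous_actF hs) a.1 fun _ => h.inv _ hs _,
    actF_mem_baseF hs a.2 (hF.invB _ (isUnit_S hs) _ a.2.1)⟩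

/-- closures of levels are levels -/
theorem Lev.clo (h : Lev F Z) (hF : F.Inv) (hc : ch.Cuts) :
    Lev F (closure Z ∩ ch.baseF ν κ F.B) := by
  classical
  refine ⟨hc.closure_inter_subset_adm hF h.adm, h.ivt_clo hF, fun x hx X hX => ⟨?_, hx.2⟩⟩
  let f : ch.WF ν κ Λ → ch.WF ν κ Λ := fun y =>
    (y.1, W.mk' y.2.Q y.2.p y.2.Ξ fun j => if j ∈ F.mov then X j else y.2.X j)
  have a : Continuous f := continuous_fst.prodMk (continuous_iff_continuousAt.2 fun y =>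
    have s : AnalyticAt ℂ Prod.snd y := analyticAt_snd
    AnalyticAt.continuousAt (𝕜 := ℂ) (W.an_iff.2 ⟨W.an_Q (x := Prod.snd) s,
      W.an_p (x := Prod.snd) s, W.an_Ξ (x := Prod.snd) s, fun j => by
        by_cases b : j ∈ F.mov
        · exact analyticAt_const.congr (.of_forall fun _ => (if_pos b).symm)
        · exact (W.an_X s j).congr (.of_forall fun _ => (if_neg b).symm)⟩))
  have b := map_mem_closure a hx.1 fun y hy => h.mov y hy _ fun j hj => if_neg hj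
  rwa [show f x = (x.1, W.mk' x.2.Q x.2.p x.2.Ξ X) from Prod.ext rfl (W.ext (fun _ => rfl)
    (fun _ => rfl) rfl fun j => ite_eq_left_iff.2 fun c => (hX j c).symm)] at b

namespace Pr

variable (h : Pr F U) (hZ : Lev F Z)
include h hZ

theorem ivt : Ivt (actF F.toWt) (Z ∩ U) := fun s hs x a => ⟨hZ.inv s hs x a.1, h.inv s hs x a.2⟩

theorem prp_lev : Prp (actF F.toWt) (Z ∩ U) := h.prp.mono (inter_subset_inter_left _ hZ.base)

theorem free : Z ∩ U ⊆ closure {x | x ∈ Z ∩ U ∧ Fre (actF F.toWt) x} := fun y hy =>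
  closure_mono (by
    rintro _ ⟨a, b, X, c, rfl⟩
    exact ⟨⟨hZ.mov y hy.1 X c, a⟩, b⟩) (h.opn.inter_closure ⟨hy.2, h.den y ⟨hZ.base hy.1, hy.2⟩⟩)

theorem finrank_le (hm : MfdAt Z N x) (hx : x ∈ U) : finrank ℂ (ch.AF ν κ S) ≤ N :=
  (h.prp_lev hZ).finrank_le (h.ivt hZ) (hm.inter' h.opn hx)

theorem str (hm : ∀ x ∈ Z, MfdAt Z N x) :
    Str (actF F.toWt) (Z ∩ U) (N - finrank ℂ (ch.AF ν κ S)) :=
  ⟨h.ivt hZ, fun x => (Nat.add_sub_cancel' (h.finrank_le hZ (hm x x.2.1) x.2.2)).symm ▸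
    ((hm x x.2.1).inter' h.opn x.2.2).2, h.free hZ⟩

theorem cyc (hB : ∀ x ∈ ch.baseF ν κ F.B, ∃ n, MfdAt (ch.baseF ν κ F.B) n x)
    (hm : ∀ x ∈ Z, MfdAt Z N x) (ha : LocAn (ch.baseF ν κ F.B) Z) :
    Cyc (actF F.toWt) (closure Z ∩ ch.baseF ν κ F.B ∩ U) (Z ∩ U) (N - finrank ℂ (ch.AF ν κ S)) := by
  have a := (h.str hZ hm).cyc (ha.inter' h.opn) (inter_subset_inter_left _ hZ.base)
    fun x => (hB x x.2.1).imp fun _ b => (b.inter' h.opn x.2.2).2
  rwa [show closure (Z ∩ U) ∩ (ch.baseF ν κ F.B ∩ U) = closure Z ∩ ch.baseF ν κ F.B ∩ U from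
    Set.ext fun _ => ⟨fun b => ⟨⟨closure_mono inter_subset_left b.1, b.2.1⟩, b.2.2⟩,
      fun b => ⟨h.opn.closure_inter ⟨b.1.1, b.2⟩, b.1.2, b.2⟩⟩] at a

end Pr

/-- domains for locally closed levels -/
theorem Std.dom_lev (h : ch.Std F e K₀ ℓ) (hU : Pr F U) (hZ : Lev F Z) (hl : IsLocallyClosed Z) :
    Dom F e Z (Z ∩ U ∩ ch.dom ν κ F e) :=
  h.dom_of_prp hZ.adm hU.opn (hU.ivt hZ) (fun _ a => hU.sol a.1) (hU.prp_lev hZ)
    (hl.inter hU.opn.isLocallyClosed)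

/-- **the closure of a stratum is a base cycle** -/
theorem Std.vd_clo (h : ch.Std F e K₀ ℓ) (hU : Pr F U)
    (hB : ∀ x ∈ ch.baseF ν κ F.B, ∃ n, MfdAt (ch.baseF ν κ F.B) n x) (hZ : Lev F Z)
    (hm : ∀ x ∈ Z, MfdAt Z N x) (ha : LocAn (ch.baseF ν κ F.B) Z) :
    Vd F e (closure Z ∩ ch.baseF ν κ F.B) (closure Z ∩ ch.baseF ν κ F.B ∩ U ∩ ch.dom ν κ F e)
      (Z ∩ U ∩ ch.dom ν κ F e) (N - finrank ℂ (ch.AF ν κ S)) :=
  have a := hZ.clo h.inv h.cuts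
  h.vd a.adm a.inv hU.opn (hU.ivt a) (fun _ b => hU.sol b.1) (hU.prp_lev a) (hU.cyc hZ hB hm ha)

/-- the degree of the virtual class -/
theorem Std.deg_clo (h : ch.Std F e K₀ ℓ) (hU : Pr F U)
    (hB : ∀ x ∈ ch.baseF ν κ F.B, ∃ n, MfdAt (ch.baseF ν κ F.B) n x) (hZ : Lev F Z)
    (hm : ∀ x ∈ Z, MfdAt Z N x) (ha : LocAn (ch.baseF ν κ F.B) Z) {v : ℤ}
    (hv : Z.Nonempty → v = N - finrank ℂ (ch.AF ν κ S) - ch.rk F ℓ K₀) :
    BM.IsDeg (2 * v) (virF F e (closure Z ∩ ch.baseF ν κ F.B)) := by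
  rcases eq_empty_or_nonempty (ch.solF ν κ F ∩ (closure Z ∩ ch.baseF ν κ F.B)) with b | ⟨x, b⟩
  · haveI : IsEmpty (ModS F (closure Z ∩ ch.baseF ν κ F.B)) := ⟨fun z => (b.le z.out.2).elim⟩
    exact BM_eq_of_isEmpty 0 (virF F e (closure Z ∩ ch.baseF ν κ F.B)) ▸ isDeg_zero' _
  · obtain ⟨y, c, d⟩ := mem_closure_iff.1 b.2.1 U hU.opn (hU.sol b.1)
    have f := (h.vd_clo hU hB hZ hm ha).deg h
    rwa [Nat.cast_sub (hU.finrank_le hZ (hm y d) c), ← mul_sub, ← hv ⟨y, d⟩] at f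

theorem val_mk' {x : ch.W ν} {X} {j : J} (h : X j = x.X j) :
    Val (W.mk' x.Q x.p x.Ξ X) j = Val x j :=
  congrArg (fun Y : ch.Th j →L[ℂ] ch.E (some j) => fun c y => ∀ u, (c, u) ∈ gr x → ∀ μ,
    u (some j) (Y μ) = y * val μ c) h

theorem fld_mk' {x : ch.W ν} {X} {j : J} (h : X j = x.X j) (c : V ch.M) :
    fld (W.mk' x.Q x.p x.Ξ X) c j = fld x c j := by rw [fld, val_mk' h, fld]

theorem lev_adm (hF : F.Inv) : Lev F (ch.adm ν κ F) :=
  ⟨Subset.rfl, fun _ hs _ => actF_mem_adm hF hs, fun x a X h => ⟨a.1,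
    fun j hj => (val_mk' (h j hj)).symm ▸ a.2.1 j hj,
    fun c b => hF.baseE _ _ _ (fun j hj => (fld_mk' (h j hj) c).symm) (a.2.2.1 c b),
    fun j hj => (h j (disjoint_left.1 hF.zer_base hj)).trans (a.2.2.2.1 j hj), fun j hj q =>
      (fld_mk' (h j hj) _).trans ((a.2.2.2.2 j hj q).trans (fld_mk' (h j hj) _).symm)⟩⟩

theorem lev_main (hF : F.Inv) (u : ν → J → ℕ) : Lev F (ch.main κ F u) :=
  ⟨fun _ a => a.1, fun _ hs _ => actF_mem_main hF hs, fun x a X h =>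
    ⟨(lev_adm hF).mov x a.1 X h, fun j hj b γ c => (congrArg (analyticOrderAt · 0)
      (funext fun _ => fld_mk' (h j hj) _)).trans (a.2 j hj b γ c)⟩⟩

theorem lev_cyc (hF : F.Inv) (hc : ch.Cuts) (u : ν → J → ℕ) : Lev F (ch.cyc κ F u) :=
  (lev_main hF u).clo hF hc

end Ch

end Vale.Agent.P269
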