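import Vale.Agent.P269.Vir.Pt
import Vale.Agent.P269.Cv.Nod

/-!
# Obstruction spaces on an abstract nodal curve: definitions
-/

set_option linter.unusedSectionVars false

namespace Vale.Agent.P269.Vir

open Set Function Topology Filter Module Cv

variable {J K Z : Type} [Fintype J] {Θ : J → Type} [∀ j, AddCommGroup (Θ j)]
  [∀ j, Module ℂ (Θ j)]

namespace PD

variable {d d' : PD K Z Θ} {pw : Z → ∀ j, Θ j} {mov : Set J} {g : K → J → ℂ}

/-- only the movable components matter -/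
theorem dEq_congr (h1 : ∀ j ∈ mov, d.tv j = d'.tv j) (h2 : ∀ k z, ∀ j ∈ mov, d.D k z j = d'.D k z j)
    {Y : ∀ j, Θ j →ₗ[ℂ] ℂ} (hY : ∀ j ∉ mov, Y j = 0) : d.dEq pw Y = d'.dEq pw Y :=
  Prod.ext (funext₂ fun j m => by
    by_cases hj : j ∈ mov
    · rw [dEq_fst, dEq_fst, h1 j hj]
    · simp [dEq_fst, hY j hj]) (funext₂ fun k z => Finset.sum_congr rfl fun j _ => by
    by_cases hj : j ∈ mov
    · rw [h2 k z j hj]
    · simp [hY j hj])

theorem Im_congr (h1 : ∀ j ∈ mov, d.tv j = d'.tv j)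
    (h2 : ∀ k z, ∀ j ∈ mov, d.D k z j = d'.D k z j) : d.Im pw mov = d'.Im pw mov :=
  Submodule.ext fun _ => exists_congr fun _ => and_congr_right fun a => by
    rw [dEq_congr h1 h2 a]

variable (d) in
/-- change of frames -/
noncomputable def sc (b l : J → ℂ) (e lk : K → ℂ) : PD K Z Θ where
  tv j := (b j)⁻¹ • d.tv j
  D k z j := d.D k z j / (lk k * e k / (l j * b j))
  tot k z := d.tot k z / e k

/-- change of frames for the values of the equations -/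
noncomputable def scF (b l : J → ℂ) (e lk : K → ℂ) (κ : Fib Θ K Z) : Fib Θ K Z :=
  (fun j m => κ.1 j m / (l j * b j * b j), fun k z => κ.2 k z / (lk k * e k))

variable {b l : J → ℂ} {e lk : K → ℂ}

theorem sc_dEq (hb : ∀ j, b j ≠ 0) (hl : ∀ j, l j ≠ 0) (Y : ∀ j, Θ j →ₗ[ℂ] ℂ) :
    (d.sc b l e lk).dEq pw (fun j => (l j * b j)⁻¹ • Y j) = scF b l e lk (d.dEq pw Y) :=
  Prod.ext (funext₂ fun j m => by
    simp only [dEq_fst, kos, sc, scF, LinearMap.smul_apply, smul_eq_mul]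
    field_simp [hb j, hl j]) (funext₂ fun k z => by
    simp only [dEq_snd, sc, scF, LinearMap.smul_apply, smul_eq_mul, Finset.sum_div]
    refine Finset.sum_congr rfl fun j _ => ?_
    rw [div_div_eq_mul_div, div_mul_eq_mul_div, mul_assoc,
      mul_inv_cancel_left₀ (mul_ne_zero (hl j) (hb j))])

theorem sc_mem (hb : ∀ j, b j ≠ 0) (hl : ∀ j, l j ≠ 0) {κ : Fib Θ K Z} (h : κ ∈ d.Im pw mov) :
    scF b l e lk κ ∈ (d.sc b l e lk).Im pw mov := by
  obtain ⟨Y, a, rfl⟩ := mem_Im.1 h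
  exact ⟨_, fun j hj => by simp [a j hj], sc_dEq hb hl Y⟩

theorem Rel.sc (h : d.Rel pw mov g) (hb : ∀ j, b j ≠ 0) (hl : ∀ j, l j ≠ 0) :
    (d.sc b l e lk).Rel pw mov fun k j => g k j * l j / lk k := fun k z j hj => by
  simp only [PD.sc, LinearMap.smul_apply, smul_eq_mul]
  rw [div_div_eq_mul_div, div_mul_eq_mul_div, div_mul_div_comm, mul_right_comm (g k j), ← h k z j hj]
  field_simp [hb j, hl j]

theorem Reg.sc {K₀ : Set K} (h : d.Reg pw mov K₀ g) (hb : ∀ j, b j ≠ 0) (hl : ∀ j, l j ≠ 0)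
    (he : ∀ k, e k ≠ 0) (hk : ∀ k, lk k ≠ 0) :
    (d.sc b l e lk).Reg pw mov K₀ fun k j => g k j * l j / lk k :=
  ⟨fun j hj => (h.tv_ne j hj).imp fun _ a => mul_ne_zero (inv_ne_zero (hb j)) a,
    fun k => (h.tot_ne k).imp fun _ a => div_ne_zero a (he k), h.rel.sc hb hl, h.jac.scale hk hl⟩

end PD

variable {X : Type} [TopologicalSpace X] {R : RS X} {N N' : Finset (X × X)}

/-- division by a base point free family of sections -/
theorem mem_of_bpf {A B : LB R} {α : Type} {t : α → X → ℂ} {f : X → ℂ}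
    (ht : ∀ a, t a ∈ H0 N B) (h0 : ∀ x, ∃ a, t a x ≠ 0) (h : ∀ a, f * t a ∈ H0 N (A * B)) :
    f ∈ H0 N A := by
  refine ⟨fun x => ?_, fun n hn => ?_⟩
  · obtain ⟨a, ha⟩ := h0 x
    have := ((h a).1 x).div ((ht a).1 x) ha
    rw [mul_div_cancel_right] at this
    exact this.congr ((((ht a).1 x).ev_ne ha).mono fun y hy => mul_div_cancel_right₀ _ hy)
  · obtain ⟨a, ha⟩ := h0 n.1
    have := (h a).2 n hn
    rw [Pi.mul_apply, Pi.mul_apply, ← (ht a).2 n hn] at this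
    exact mul_right_cancel₀ ha this

/-- Test data on a curve: `tv j` are the test sections of `B j`, `tot k` those of `E k`; `D` are the
coefficients of the linearised equations, `g` is the Jacobian matrix, `pw z j` is the test of the
field `j` that is used in the equations tested with `z`; `mov` are the movable fields and `K₀` the
independent equations. -/
structure CD (R : RS X) (K Z : Type) (Θ : J → Type) [∀ j, AddCommGroup (Θ j)]
    [∀ j, Module ℂ (Θ j)] where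
  B : J → LB R
  E : K → LB R
  tv : ∀ j, Θ j →ₗ[ℂ] X → ℂ
  D : K → Z → J → X → ℂ
  tot : K → Z → X → ℂ
  g : K → J → X → ℂ
  pw : Z → ∀ j, Θ j
  mov : Set J
  K₀ : Set K

/-- functions on the curve with values in `Fib` -/
abbrev Gl (X : Type) (Θ : J → Type) (K Z : Type) : Type :=
  (∀ j, Θ j × Θ j → X → ℂ) × (K → Z → X → ℂ)

/-- evaluation at a point -/
def evG (x : X) : Gl X Θ K Z →ₗ[ℂ] Fib Θ K Z where
  toFun κ := (fun j m => κ.1 j m x, fun k z => κ.2 k z x)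
  map_add' _ _ := rfl
  map_smul' _ _ := rfl

theorem ext_evG {κ κ' : Gl X Θ K Z} (h : ∀ x, evG x κ = evG x κ') : κ = κ' :=
  Prod.ext (funext₂ fun j m => funext fun x => congrFun (congrFun (congrArg Prod.fst (h x)) j) m)
    (funext₂ fun k z => funext fun x => congrFun (congrFun (congrArg Prod.snd (h x)) k) z)

/-- evaluation of thickened fields -/
def evY (x : X) : (∀ j, Θ j →ₗ[ℂ] X → ℂ) →ₗ[ℂ] ∀ j, Θ j →ₗ[ℂ] ℂ where
  toFun Y j := LinearMap.proj x ∘ₗ Y j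
  map_add' _ _ := rfl
  map_smul' _ _ := rfl

@[simp] theorem evY_apply (x : X) (Y : ∀ j, Θ j →ₗ[ℂ] X → ℂ) (j : J) (m : Θ j) :
    evY x Y j m = Y j m x := rfl

/-- the Euler characteristic on the nodal curve -/
noncomputable def chiN (N : Finset (X × X)) (L : LB R) : ℤ := deg L + 1 - gen R N

namespace CD

variable (c : CD R K Z Θ) (N : Finset (X × X)) (L : J → LB R) (Lk : K → LB R)

/-- the data at a point -/
def pt (x : X) : PD K Z Θ := ⟨evY x c.tv, fun k z j => c.D k z j x, fun k z => c.tot k z x⟩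

/-- the fibre of the obstruction sheaf -/
def Im (x : X) : Submodule ℂ (Fib Θ K Z) := (c.pt x).Im c.pw c.mov

/-- The data are holomorphic and regular; the fields are sections of `L j` and the equations are
sections of `Lk k`. -/
structure Ok : Prop where
  tv_mem : ∀ j ∈ c.mov, ∀ m, c.tv j m ∈ H0 N (c.B j)
  D_mem : ∀ k z, ∀ j ∈ c.mov, c.D k z j ∈ H0 N (Lk k * c.E k / (L j * c.B j))
  tot_mem : ∀ k z, c.tot k z ∈ H0 N (c.E k)
  reg : ∀ x, (c.pt x).Reg c.pw c.mov c.K₀ fun k j => c.g k j x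

/-- the movable thickened fields -/
def Fld : Submodule ℂ (∀ j, Θ j →ₗ[ℂ] X → ℂ) where
  carrier := {Y | (∀ j ∉ c.mov, Y j = 0) ∧ ∀ j m, Y j m ∈ H0 N (L j * c.B j)}
  add_mem' a b := ⟨fun j h => by simp [a.1 j h, b.1 j h], fun j m => add_mem (a.2 j m) (b.2 j m)⟩
  zero_mem' := ⟨fun _ _ => rfl, fun _ _ => zero_mem _⟩
  smul_mem' _ _ a := ⟨fun j h => by simp [a.1 j h], fun j m => Submodule.smul_mem _ _ (a.2 j m)⟩

/-- the obstruction space -/
def Ob : Submodule ℂ (Gl X Θ K Z) where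
  carrier := {κ | (∀ j m, κ.1 j m ∈ H0 N (L j * c.B j * c.B j)) ∧
    (∀ k z, κ.2 k z ∈ H0 N (Lk k * c.E k)) ∧ ∀ x, evG x κ ∈ c.Im x}
  add_mem' a b := ⟨fun j m => add_mem (a.1 j m) (b.1 j m), fun k z => add_mem (a.2.1 k z) (b.2.1 k z),
    fun x => add_mem (a.2.2 x) (b.2.2 x)⟩
  zero_mem' := ⟨fun _ _ => zero_mem _, fun _ _ => zero_mem _, fun _ => zero_mem _⟩
  smul_mem' _ _ a := ⟨fun j m => Submodule.smul_mem _ _ (a.1 j m),
    fun k z => Submodule.smul_mem _ _ (a.2.1 k z), fun x => Submodule.smul_mem _ _ (a.2.2 x)⟩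

/-- the linearised equations -/
def dG : (∀ j, Θ j →ₗ[ℂ] X → ℂ) →ₗ[ℂ] Gl X Θ K Z where
  toFun Y := (fun j m => c.tv j m.2 * Y j m.1 - c.tv j m.1 * Y j m.2,
    fun k z => ∑ j, c.D k z j * Y j (c.pw z j))
  map_add' Y Y' := Prod.ext (funext₂ fun j m => by
    simp only [Pi.add_apply, LinearMap.add_apply, Prod.fst_add]
    ring) (funext₂ fun k z => by simp [mul_add, Finset.sum_add_distrib])
  map_smul' a Y := Prod.ext (funext₂ fun j m => by simp [smul_sub]) (funext₂ fun k z => by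
    simp [Finset.smul_sum])

/-- multiples of the test factors -/
def nG : (K → X → ℂ) →ₗ[ℂ] Gl X Θ K Z where
  toFun a := (0, fun k z => a k * c.tot k z)
  map_add' _ _ := Prod.ext (add_zero _).symm (funext₂ fun _ _ => add_mul _ _ _)
  map_smul' t a := Prod.ext (smul_zero _).symm (funext₂ fun k z =>
    smul_mul_assoc t (a k) (c.tot k z))

/-- multiples of the tests -/
def tG : (J → X → ℂ) →ₗ[ℂ] ∀ j, Θ j →ₗ[ℂ] X → ℂ where
  toFun η j := LinearMap.mulLeft ℂ (η j) ∘ₗ c.tv j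
  map_add' _ _ := funext fun _ => LinearMap.ext fun _ => add_mul _ _ _
  map_smul' t η := funext fun j => LinearMap.ext fun m => smul_mul_assoc t (η j) (c.tv j m)

/-- restriction to sub-tests `i j : Θ' j → Θ j`, `ζ : Z' → Z` -/
def sub {Z' : Type} {Θ' : J → Type} [∀ j, AddCommGroup (Θ' j)] [∀ j, Module ℂ (Θ' j)]
    (i : ∀ j, Θ' j →ₗ[ℂ] Θ j) (ζ : Z' → Z) (pw' : Z' → ∀ j, Θ' j) : CD R K Z' Θ' where
  B := c.B
  E := c.E
  tv j := c.tv j ∘ₗ i j
  D k z := c.D k (ζ z)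
  tot k z := c.tot k (ζ z)
  g := c.g
  pw := pw'
  mov := c.mov
  K₀ := c.K₀

/-- restriction to a part of the equations -/
def eqs {K' : Type} (φ : K' → K) (K₀ : Set K') : CD R K' Z Θ where
  B := c.B
  E k := c.E (φ k)
  tv := c.tv
  D k := c.D (φ k)
  tot k := c.tot (φ k)
  g k := c.g (φ k)
  pw := c.pw
  mov := c.mov
  K₀ := K₀

/-- the sections of the normal sheaf -/
def Nrm : Submodule ℂ (K → X → ℂ) where
  carrier := {a | (∀ k, a k ∈ H0 N (Lk k)) ∧ ∀ x, (fun k => a k x) ∈ Wg (fun k j => c.g k j x) c.mov}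
  add_mem' a b := ⟨fun k => add_mem (a.1 k) (b.1 k), fun x => add_mem (a.2 x) (b.2 x)⟩
  zero_mem' := ⟨fun _ => zero_mem _, fun _ => zero_mem _⟩
  smul_mem' _ _ a := ⟨fun k => Submodule.smul_mem _ _ (a.1 k), fun x => Submodule.smul_mem _ _ (a.2 x)⟩

variable {c N L Lk}

theorem mem_Nrm {a : K → X → ℂ} : a ∈ c.Nrm N Lk ↔ (∀ k, a k ∈ H0 N (Lk k)) ∧
    ∀ x, (fun k => a k x) ∈ Wg (fun k j => c.g k j x) c.mov := Iff.rfl

theorem evG_dG (Y : ∀ j, Θ j →ₗ[ℂ] X → ℂ) (x : X) :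
    evG x (c.dG Y) = (c.pt x).dEq c.pw (evY x Y) :=
  Prod.ext rfl (funext₂ fun _ _ => Finset.sum_apply _ _ _)

theorem evG_nG (a : K → X → ℂ) (x : X) : evG x (c.nG a) = (c.pt x).nrm fun k => a k x := rfl

theorem evY_tG (η : J → X → ℂ) (x : X) :
    evY x (c.tG η) = fun j => η j x • (c.pt x).tv j := rfl

theorem mem_Fld {Y : ∀ j, Θ j →ₗ[ℂ] X → ℂ} : Y ∈ c.Fld N L ↔
    (∀ j ∉ c.mov, Y j = 0) ∧ ∀ j m, Y j m ∈ H0 N (L j * c.B j) := Iff.rfl

theorem mem_Ob {κ : Gl X Θ K Z} : κ ∈ c.Ob N L Lk ↔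
    (∀ j m, κ.1 j m ∈ H0 N (L j * c.B j * c.B j)) ∧ (∀ k z, κ.2 k z ∈ H0 N (Lk k * c.E k)) ∧
      ∀ x, evG x κ ∈ c.Im x := Iff.rfl

theorem Ok.twist (h : c.Ok N L Lk) (T : LB R) : c.Ok N (fun j => L j * T) fun k => Lk k * T :=
  ⟨h.tv_mem, fun k z j hj => by
    rw [mul_right_comm, mul_right_comm (L j), mul_div_mul_right_eq_div]; exact h.D_mem k z j hj,
    h.tot_mem, h.reg⟩

theorem Ok.anti (h : c.Ok N' L Lk) (e : N ⊆ N') : c.Ok N L Lk :=
  ⟨fun j hj m => H0_anti e (h.tv_mem j hj m), fun k z j hj => H0_anti e (h.D_mem k z j hj),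
    fun k z => H0_anti e (h.tot_mem k z), h.reg⟩

theorem Ok.Im_node (h : c.Ok N L Lk) {n : X × X} (hn : n ∈ N) : c.Im n.1 = c.Im n.2 :=
  PD.Im_congr (fun j hj => LinearMap.ext fun m => (h.tv_mem j hj m).2 n hn)
    fun k z j hj => (h.D_mem k z j hj).2 n hn

theorem Ok.g_mem (h : c.Ok N L Lk) (k : K) {j : J} (hj : j ∈ c.mov) :
    c.g k j ∈ H0 N (Lk k / L j) :=
  mem_of_bpf (h.tot_mem k) (fun x => (h.reg x).tot_ne k) fun z => by
    have := H0.mul_mem (h.D_mem k z j hj) (h.tv_mem j hj (c.pw z j))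
    rwa [show c.D k z j * c.tv j (c.pw z j) = c.g k j * c.tot k z from
      funext fun x => (h.reg x).rel k z j hj, div_mul_eq_mul_div, mul_div_mul_right_eq_div,
      mul_div_right_comm] at this

theorem Ok.dG_mem (h : c.Ok N L Lk) {Y : ∀ j, Θ j →ₗ[ℂ] X → ℂ} (hY : Y ∈ c.Fld N L) :
    c.dG Y ∈ c.Ob N L Lk := by
  refine ⟨fun j m => ?_, fun k z => Submodule.sum_mem _ fun j _ => ?_, fun x =>
    ⟨evY x Y, fun j hj => LinearMap.ext fun m => by simp [hY.1 j hj], (evG_dG Y x).symm⟩⟩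
  · by_cases hj : j ∈ c.mov
    · rw [mul_comm]
      exact sub_mem (H0.mul_mem (h.tv_mem j hj _) (hY.2 j _)) (H0.mul_mem (h.tv_mem j hj _) (hY.2 j _))
    · simp [dG, hY.1 j hj]
  · by_cases hj : j ∈ c.mov
    · simpa using H0.mul_mem (h.D_mem k z j hj) (hY.2 j (c.pw z j))
    · simp [hY.1 j hj]

theorem Ok.nG_mem (h : c.Ok N L Lk) {a : K → X → ℂ} (ha : a ∈ c.Nrm N Lk) :
    c.nG a ∈ c.Ob N L Lk :=
  ⟨fun _ _ => zero_mem _, fun k z => H0.mul_mem (ha.1 k) (h.tot_mem k z),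
    fun x => (h.reg x).rel.nrm_mem (ha.2 x)⟩

theorem Ok.tG_mem (h : c.Ok N L Lk) {η : J → X → ℂ} (h0 : ∀ j ∉ c.mov, η j = 0)
    (hη : ∀ j, η j ∈ H0 N (L j)) : c.tG η ∈ c.Fld N L :=
  ⟨fun j hj => LinearMap.ext fun m => by simp [tG, h0 j hj], fun j m => by
    by_cases hj : j ∈ c.mov
    · exact H0.mul_mem (hη j) (h.tv_mem j hj m)
    · simp [tG, h0 j hj]⟩

theorem Ok.dG_tG (h : c.Ok N L Lk) {η : J → X → ℂ} (h0 : ∀ j ∉ c.mov, η j = 0) :
    c.dG (c.tG η) = c.nG fun k => ∑ j, c.g k j * η j :=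
  ext_evG fun x => by
    rw [evG_dG, evY_tG, (h.reg x).rel.dEq_tv fun j hj => by simp [h0 j hj], evG_nG]
    simp

/-- fields with vanishing Koszul relations are multiples of the tests -/
theorem Ok.exists_tG (h : c.Ok N L Lk) {Y : ∀ j, Θ j →ₗ[ℂ] X → ℂ} (hY : Y ∈ c.Fld N L)
    (h0 : (c.dG Y).1 = 0) :
    ∃ η : J → X → ℂ, (∀ j ∉ c.mov, η j = 0) ∧ (∀ j, η j ∈ H0 N (L j)) ∧ c.tG η = Y := by
  choose η a b using fun x => PD.exists_eta (pw := c.pw) (h.reg x).tv_ne (Y := evY x Y)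
    (fun j hj => LinearMap.ext fun m => by simp [hY.1 j hj])
    ((congrArg Prod.fst (evG_dG Y x)).symm.trans (funext₂ fun j m =>
      congrFun (congrFun (congrFun h0 j) m) x))
  have e : ∀ j m, (fun x => η x j) * c.tv j m = Y j m := fun j m => funext fun x =>
    (LinearMap.congr_fun (congrFun (b x) j) m).symm
  refine ⟨fun j x => η x j, fun j hj => funext fun x => a x j hj, fun j => ?_,
    funext fun j => LinearMap.ext (e j)⟩
  by_cases hj : j ∈ c.mov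
  · exact mem_of_bpf (h.tv_mem j hj) (fun x => (h.reg x).tv_ne j hj) fun m => e j m ▸ hY.2 j m
  · exact (congrArg (· ∈ H0 N (L j)) (funext fun x => a x j hj : (fun x => η x j) = 0)).mpr
      (zero_mem _)

theorem Ok.exists_nG (h : c.Ok N L Lk) {κ : Gl X Θ K Z} (hκ : κ ∈ c.Ob N L Lk) (h0 : κ.1 = 0) :
    ∃ a ∈ c.Nrm N Lk, c.nG a = κ := by
  choose a a' b using fun x => (h.reg x).rel.exists_nrm (h.reg x).tv_ne (hκ.2.2 x)
    (funext₂ fun j m => congrFun (congrFun (congrFun h0 j) m) x)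
  have e : c.nG (fun k x => a x k) = κ := ext_evG b
  exact ⟨_, ⟨fun k => mem_of_bpf (h.tot_mem k) (fun x => (h.reg x).tot_ne k) fun z =>
    (congrArg (·.2 k z ∈ H0 N (Lk k * c.E k)) e).mpr (hκ.2.1 k z), a'⟩, e⟩

end CD

/-- restriction of the values of the equations to sub-tests -/
def resG {Z' : Type} {Θ' : J → Type} [∀ j, AddCommGroup (Θ' j)] [∀ j, Module ℂ (Θ' j)]
    (i : ∀ j, Θ' j →ₗ[ℂ] Θ j) (ζ : Z' → Z) : Gl X Θ K Z →ₗ[ℂ] Gl X Θ' K Z' where
  toFun κ := (fun j m => κ.1 j (i j m.1, i j m.2), fun k z => κ.2 k (ζ z))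
  map_add' _ _ := rfl
  map_smul' _ _ := rfl

end Vale.Agent.P269.Vir
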