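import Vale.Agent.P269.Vir.Defs
import Vale.Agent.P269.Vir.Ob
import Vale.Agent.P269.Pt.Fld

/-!
# The test data of a point of a chart on the abstract curve: definitions
-/

set_option linter.unusedSectionVars false

namespace Vale.Agent.P269.Ch

open Set Function Vir Cv

variable {S Λ R J K ι ν κ X : Type} [Fintype S] [Fintype Λ] [Fintype R] [Fintype J] [Fintype K]
  [Fintype ι] [DecidableEq ι] [Fintype ν] [Fintype κ] [TopologicalSpace X] {Q : RS X} {ch : Ch ι J}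

/-- restriction of functions to the abstract curve -/
def resC (π : X → V ch.M) (u : X → ∀ l, ch.E l →L[ℂ] ℂ) : ch.P K →ₗ[ℂ] Gl X ch.Th K ch.Zt where
  toFun f := (fun j m y => f.1 j (π y, u y) m, fun k ζ y => f.2 k (π y, u y) ζ)
  map_add' _ _ := rfl
  map_smul' _ _ := rfl

theorem evG_resC (π : X → V ch.M) (u : X → ∀ l, ch.E l →L[ℂ] ℂ) (f : ch.P K) (y : X) :
    evG y (resC π u f) = evZ (π y, u y) f := rfl

/-- the test data; `s j` is the section that induces the field `j` -/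
noncomputable def cd (F : Fam S Λ R J K) (e : K → ι → ℕ) (K₀ : Set K) (x : ch.WF ν κ Λ)
    (A : ι → LB Q) (π : X → V ch.M) (u : X → ∀ l, ch.E l →L[ℂ] ℂ) (s : J → X → ℂ) :
    CD Q K ch.Zt ch.Th where
  B j := bz A fun i => ch.b j i
  E k := bz A fun i => e k i
  tv j := LinearMap.pi fun y => tvZ (π y) j
  D k ζ j y := (pd F e x (π y, u y)).D k ζ j
  tot k ζ y := (pd F e x (π y, u y)).tot k ζ
  g k j y := F.jac (x.1, fun j => s j y) k j
  pw := pwT
  mov := F.mov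
  K₀ := K₀

theorem cd_pt (F : Fam S Λ R J K) (e : K → ι → ℕ) (K₀ : Set K) (x : ch.WF ν κ Λ) (A : ι → LB Q)
    (π : X → V ch.M) (u : X → ∀ l, ch.E l →L[ℂ] ℂ) (s : J → X → ℂ) (y : X) :
    (cd F e K₀ x A π u s).pt y = pd F e x (π y, u y) := rfl

variable (ch) in
/-- bilinear forms on the tests -/
def PiT (j : J) : Submodule ℂ (ch.Th j × ch.Th j → ℂ) :=
  Submodule.span ℂ (range fun l : (ch.Th j →L[ℂ] ℂ) × (ch.Th j →L[ℂ] ℂ) =>
    fun m => l.1 m.1 * l.2 m.2)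

open Classical in
variable (ch) in
/-- the restrictions of the polynomial functions -/
def Tg (F : Fam S Λ R J K) (e : K → ι → ℕ) (ℓ : R → ι → ℤ) (N : Finset (X × X)) (A : ι → LB Q) :
    Submodule ℂ (Gl X ch.Th K ch.Zt) where
  carrier := {f | (∀ j m, f.1 j m ∈ H0 N (bz A fun i => ch.a (some j) i + ch.b j i)) ∧
    (∀ j y, (fun m => f.1 j m y) ∈ ch.PiT j) ∧
    (∀ k ζ, f.2 k ζ ∈ H0 N (bz A fun i => F.dk ℓ k i + e k i)) ∧
    ∀ k y, (fun ζ => f.2 k ζ y) ∈ if F.G k = 0 then ⊥ else ch.PiZ (e k)}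
  add_mem' a b := ⟨fun j m => add_mem (a.1 j m) (b.1 j m), fun j y => add_mem (a.2.1 j y) (b.2.1 j y),
    fun k ζ => add_mem (a.2.2.1 k ζ) (b.2.2.1 k ζ), fun k y => add_mem (a.2.2.2 k y) (b.2.2.2 k y)⟩
  zero_mem' := ⟨fun _ _ => zero_mem _, fun _ _ => zero_mem _, fun _ _ => zero_mem _,
    fun _ _ => zero_mem _⟩
  smul_mem' _ _ a := ⟨fun j m => Submodule.smul_mem _ _ (a.1 j m),
    fun j y => Submodule.smul_mem _ _ (a.2.1 j y), fun k ζ => Submodule.smul_mem _ _ (a.2.2.1 k ζ),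
    fun k y => Submodule.smul_mem _ _ (a.2.2.2 k y)⟩

end Vale.Agent.P269.Ch
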