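import Vale.Agent.P269.Orb.Vir2

set_option linter.all false

/-!
# Kuranishi data in the form of the statement and their presentations
-/

namespace Vale.Agent.P269.Ch

open Set Function Topology Filter Module Vale.Agent.P291Z Vale.Agent.P269.Orb

/-- Kuranishi data: an action `ρ` on `P₀ ⊆ P`, subspaces `van x ⊆ obs x` and a section `s`. -/
structure KD (A W P : Type) [AddCommGroup P] [Module ℂ P] where
  /-- the action -/
  ρ : A → P → P
  /-- the finite dimensional representation -/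
  P₀ : Submodule ℂ P
  /-- the subspaces that are divided out -/
  van : W → Submodule ℂ P
  /-- the obstruction spaces -/
  obs : W → Submodule ℂ P
  /-- the section -/
  s : W → P

namespace KD

variable {A A' W W' P P' : Type} [AddCommGroup P] [Module ℂ P] [TopologicalSpace P]
  [AddCommGroup P'] [Module ℂ P'] [TopologicalSpace P'] {Y Y' : Sp}

/-- the pull-back -/
def pb (D : KD A W P) (th : A' → A) (μ : W' → W) : KD A' W' P :=
  ⟨fun a => D.ρ (th a), D.P₀, fun x => D.van (μ x), fun x => D.obs (μ x), fun x => D.s (μ x)⟩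

/-- `k` presents the pull-back of `D` along `(th, μ)`. -/
structure IsKP (D : KD A W P) (Y : Sp) (th : Y.G → A) (μ : Y.T → W) (k : KP Y)
    (i : k.P.W →ₗ[ℂ] P) : Prop where
  emb : IsEmbedding i
  range : LinearMap.range i = D.P₀
  top : ∀ t, k.P.F t = ⊤
  eqv : ∀ (g : Y.G) w, i (g • w) = D.ρ (th g) (i w)
  van : ∀ t w, w ∈ k.van t ↔ i w ∈ D.van (μ t)
  sec : ∀ t, i (k.s t) = D.s (μ t)
  obs : ∀ t ∈ k.Zs, ∀ w, w ∈ k.obs t ↔ i w ∈ D.obs (μ t)

theorem isKP_pb {D : KD A W P} {th : A' → A} {μ : W' → W} {th' : Y.G → A'} {μ' : Y.T → W'} {k : KP Y}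
    {i : k.P.W →ₗ[ℂ] P} : (D.pb th μ).IsKP Y th' μ' k i ↔
      D.IsKP Y (fun g => th (th' g)) (fun t => μ (μ' t)) k i :=
  ⟨fun h => ⟨h.1, h.2, h.3, h.4, h.5, h.6, h.7⟩, fun h => ⟨h.1, h.2, h.3, h.4, h.5, h.6, h.7⟩⟩

namespace IsKP

variable {D : KD A W P} {D' : KD A' W' P'} {th : Y.G → A} {μ : Y.T → W} {k : KP Y}
  {i : k.P.W →ₗ[ℂ] P} {th' : Y'.G → A'} {μ' : Y'.T → W'} {k' : KP Y'} {i' : k'.P.W →ₗ[ℂ] P'}
  (h : D.IsKP Y th μ k i)
include h

theorem mem (w : k.P.W) : i w ∈ D.P₀ := h.range.le ⟨w, rfl⟩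

theorem lift {f : P} (hf : f ∈ D.P₀) : ∃ w, i w = f := h.range.ge hf

theorem memF (t : Y.T) (w : k.P.W) : w ∈ k.P.F t := (h.top t).ge trivial

theorem mem_Zs {t : Y.T} : t ∈ k.Zs ↔ D.s (μ t) ∈ D.van (μ t) := (h.van t _).trans (by rw [h.sec])

theorem fin : FiniteDimensional ℂ D.P₀ := h.range ▸ inferInstance

theorem finrank_P : finrank ℂ D.P₀ = finrank ℂ k.P.W := by
  rw [← h.range, LinearMap.finrank_range_of_inj h.emb.injective]

theorem finrank_eq {S : Submodule ℂ k.P.W} {S' : Submodule ℂ P} (e : ∀ w, w ∈ S ↔ i w ∈ S') :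
    finrank ℂ (S' ⊓ D.P₀ : Submodule ℂ P) = finrank ℂ S := by
  rw [← finrank_map_of_inj (S := S) (f := i) fun w _ => (map_eq_zero_iff i h.emb.injective).1,
    show S = S'.comap i from Submodule.ext e, Submodule.map_comap_eq, h.range, inf_comm]

theorem finrank_van (t : Y.T) : finrank ℂ (D.van (μ t) ⊓ D.P₀ : Submodule ℂ P) = k.v :=
  (h.finrank_eq (h.van t)).trans (k.van_rank t)

theorem finrank_obs {t : Y.T} (ht : t ∈ k.Zs) :
    finrank ℂ (D.obs (μ t) ⊓ D.P₀ : Submodule ℂ P) = k.v + k.r :=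
  (h.finrank_eq (h.obs t ht)).trans (k.obs_rank t ht)

theorem pb (m : Mor Y' Y) : D.IsKP Y' (fun g => th (m.ρ g)) (fun t => μ (m.f t)) (k.pb m) i :=
  ⟨h.emb, h.range, fun _ => h.top _, fun _ => h.eqv _, fun _ => h.van _, fun _ => h.sec _,
    fun _ => h.obs _⟩

/-- **homomorphisms** given by linear maps of the ambient spaces -/
theorem exists_hom (h' : D'.IsKP Y' th' μ' k' i') (m : Mor Y' Y) (B : Y'.T → P' →ₗ[ℂ] P)
    (mem : ∀ t, ∀ f ∈ D'.P₀, B t f ∈ D.P₀) (cont : ∀ f ∈ D'.P₀, Continuous fun t => B t f)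
    (eqv : ∀ (g : Y'.G) t, ∀ f ∈ D'.P₀, B (g • t) (D'.ρ (th' g) f) = D.ρ (th (m.ρ g)) (B t f))
    (van : ∀ t, ∀ f ∈ D'.P₀, f ∈ D'.van (μ' t) → B t f ∈ D.van (μ (m.f t)))
    (sec : ∀ t, B t (D'.s (μ' t)) - D.s (μ (m.f t)) ∈ D.van (μ (m.f t)))
    (obs : ∀ t ∈ k'.Zs, ∀ f ∈ D'.P₀, f ∈ D'.obs (μ' t) → B t f ∈ D.obs (μ (m.f t))) :
    ∃ L : Y'.T → k'.P.W →ₗ[ℂ] k.P.W, k'.Hom k m L ∧ ∀ t w, i (L t w) = B t (i' w) := by
  obtain ⟨j, hj⟩ := i.exists_leftInverse_of_injective (LinearMap.ker_eq_bot.2 h.emb.injective)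
  have h1 : ∀ t w, i (j (B t (i' w))) = B t (i' w) := fun t w => by
    obtain ⟨u, hu⟩ := h.lift (mem t _ (h'.mem w))
    rw [← hu, show j (i u) = u from LinearMap.congr_fun hj u]
  have h2 : Continuous fun t => LinearMap.toContinuousLinearMap (j ∘ₗ B t ∘ₗ i') :=
    continuous_clm_apply.2 fun w => h.emb.continuous_iff.2
      ((cont _ (h'.mem w)).congr fun t => (h1 t w).symm)
  have h3 : ∀ t, ∀ w ∈ k'.van t, j (B t (i' w)) ∈ k.van (m.f t) := fun t w hw =>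
    (h.van _ _).2 ((h1 t w).symm ▸ van t _ (h'.mem w) ((h'.van t w).1 hw))
  have h4 : ∀ t, j (B t (i' (k'.s t))) - k.s (m.f t) ∈ k.van (m.f t) := fun t =>
    (h.van _ _).2 (by rw [map_sub, h1, h.sec, h'.sec]; exact sec t)
  refine ⟨fun t => j ∘ₗ B t ∘ₗ i', ⟨Hom.of_continuous (fun _ _ _ => h.memF _ _)
    ((h2.comp continuous_fst).clm_apply continuous_snd) fun g t w _ => h.emb.injective ?_, h3, h4,
    fun t ht w hw => (h.obs _ ?_ _).2
      ((h1 t w).symm ▸ obs t ht _ (h'.mem w) ((h'.obs t ht w).1 hw))⟩, h1⟩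
  · exact (h1 _ _).trans (by rw [h'.eqv, eqv g t _ (h'.mem w), h.eqv, ← h1]; rfl)
  · have := (k.van _).sub_mem (h3 t _ ht) (h4 t)
    rwa [sub_sub_cancel] at this

/-- **uniqueness** of presentations -/
theorem cmp {th' : Y'.G → A} {μ' : Y'.T → W} {i' : k'.P.W →ₗ[ℂ] P} (h' : D.IsKP Y' th' μ' k' i')
    (m : Mor Y' Y) (e1 : ∀ g, th (m.ρ g) = th' g) (e2 : ∀ t, μ (m.f t) = μ' t) :
    k'.Cmp k m.map := by
  obtain ⟨L, h1, h2⟩ := h.exists_hom h' m (fun _ => LinearMap.id) (fun _ _ h => h)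
    (fun _ _ => continuous_const) (fun g _ _ _ => by rw [e1]; rfl) (fun t _ _ h => e2 t ▸ h)
    (fun t => by rw [e2]; exact (sub_self (D.s (μ' t))).symm ▸ zero_mem _) fun t _ _ _ h => e2 t ▸ h
  have h3 : ∀ t ∈ k'.Zs, ∀ w ∈ k'.obs t, L t w ∈ k.van (m.f t) → w ∈ k'.van t := fun t _ w _ hw =>
    (h'.van t w).2 (by simpa only [h2, e2, LinearMap.id_apply] using (h.van _ _).1 hw)
  rcases eq_empty_or_nonempty k'.Zs with h4 | ⟨t, ht⟩
  · exact ⟨m.map.continuous, h1.Z_subset, h1.isol h3, LCoh.of_van (by simp [KP.Z, h4])⟩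
  · have h5 := h.finrank_van (m.f t)
    have h6 := h.finrank_obs (h1.mem_Zs ht)
    rw [e2] at h5 h6
    exact h1.cmp h3 (by have := h'.finrank_van t; have := h'.finrank_obs ht; omega)

end IsKP

variable [NormedRing A] [NormedAlgebra ℂ A] [NormedAddCommGroup W] [NormedSpace ℂ W]
  [NormedRing A'] [NormedAlgebra ℂ A'] [NormedAddCommGroup W'] [NormedSpace ℂ W']

/-- The axioms of Kuranishi data on `O`. -/
structure Ok (D : KD A W P) (act : A → W → W) (O : Set W) (v r : ℕ) : Prop where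
  fin : FiniteDimensional ℂ D.P₀
  rep : IsRepOn D.ρ D.P₀
  fam : IsFam act D.ρ O D.P₀ D.van v
  mem : ∀ x ∈ O, D.s x ∈ D.P₀
  cont : ContinuousOn D.s O
  eqv : ∀ x ∈ O, ∀ a, IsUnit a → D.s (act a x) = D.ρ a (D.s x)
  obs_closed : IsClosed {z : O × P | D.s z.1 ∈ D.van z.1 ∧ z.2 ∈ D.obs z.1}
  obs_rank : ∀ x ∈ O, D.s x ∈ D.van x → finrank ℂ (D.obs x) = v + r
  obs_inv : ∀ x ∈ O, D.s x ∈ D.van x → ∀ a, IsUnit a → ∀ f ∈ D.obs x, D.ρ a f ∈ D.obs (act a x)
  le_obs : ∀ x ∈ O, D.s x ∈ D.van x → D.van x ≤ D.obs x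
  obs_le : ∀ x ∈ O, D.s x ∈ D.van x → D.obs x ≤ D.P₀
  cone : ∀ x ∈ O, D.s x ∈ D.van x → ∀ w (y : ℕ → W) (c : ℕ → ℂ) (u : ℕ → P), (∀ n, y n ∈ O) →
    Tendsto y atTop (𝓝 x) → (∀ n, u n ∈ D.van (y n)) →
    Tendsto (fun n => c n • D.s (y n) + u n) atTop (𝓝 w) → w ∈ D.obs x

variable {D : KD A W P} {act : A → W → W} {act' : A' → W' → W'} {O : Set W} {O' : Set W'} {v r : ℕ}

theorem Ok.pb (h : D.Ok act O v r) {th : A' → A} (θ : A'ˣ →* Aˣ) (hθ : Continuous θ)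
    (e : ∀ g : A'ˣ, th g = θ g) {μ : W' → W} (hμ : ContinuousOn μ O') (hm : ∀ x ∈ O', μ x ∈ O)
    (he : ∀ x ∈ O', ∀ a, IsUnit a → μ (act' a x) = act (th a) (μ x)) :
    (D.pb th μ).Ok act' O' v r := by
  have h1 : ∀ a, IsUnit a → IsUnit (th a) := fun _ ⟨g, hg⟩ => ⟨θ g, hg ▸ (e g).symm⟩
  have h2 : Continuous fun z : O' × P => ((⟨μ z.1, hm _ z.1.2⟩ : O), z.2) :=
    ((hμ.restrict.comp continuous_fst).subtype_mk _).prodMk continuous_snd
  refine ⟨h.fin, ⟨fun a ha => h.rep.mem _ (h1 a ha), fun a ha => h.rep.add _ (h1 a ha),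
    fun a ha => h.rep.smul _ (h1 a ha), fun q hq => ?_, ?_, fun q hq =>
      ((h.rep.cont q hq).comp hθ).congr fun g => congrArg (D.ρ · q) (e g).symm⟩,
    ⟨fun x hx => h.fam.le _ (hm x hx), h.fam.closed.preimage h2, fun x hx => h.fam.rank _ (hm x hx),
      fun x hx a ha q hq => ?_⟩, fun x hx => h.mem _ (hm x hx), h.cont.comp hμ hm,
    fun x hx a ha => (congrArg D.s (he x hx a ha)).trans (h.eqv _ (hm x hx) _ (h1 a ha)),
    h.obs_closed.preimage h2, fun x hx => h.obs_rank _ (hm x hx), fun x hx hs a ha q hq => ?_,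
    fun x hx => h.le_obs _ (hm x hx), fun x hx => h.obs_le _ (hm x hx),
    fun x hx hs w y c u a b => h.cone _ (hm x hx) hs w (fun n => μ (y n)) c u (fun n => hm _ (a n))
      ((hμ x hx).tendsto.comp (tendsto_nhdsWithin_iff.2 ⟨b, .of_forall a⟩))⟩
  · exact (congrArg (D.ρ · q) ((e 1).trans (congrArg _ θ.map_one))).trans (h.rep.one q hq)
  · rintro _ _ ⟨g, rfl⟩ ⟨g', rfl⟩ q hq
    exact (congrArg (D.ρ · q) ((e (g * g')).trans (by rw [map_mul, e, e]; rfl))).trans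
      (h.rep.mul _ _ (h1 _ g.isUnit) (h1 _ g'.isUnit) q hq)
  · exact (congrArg D.van (he x hx a ha)).ge (h.fam.inv _ (hm x hx) _ (h1 a ha) q hq)
  · exact (congrArg D.obs (he x hx a ha)).ge (h.obs_inv _ (hm x hx) hs _ (h1 a ha) q hq)

theorem Ok.mono (h : D.Ok act O v r) {O₁ : Set W} (e : O₁ ⊆ O) : D.Ok act O₁ v r :=
  h.pb (th := id) (μ := id) (MonoidHom.id _) continuous_id (fun _ => rfl) continuousOn_id e
    fun _ _ _ _ => rfl

/-- **existence** of presentations -/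
theorem Ok.exists_isKP [IsTopologicalAddGroup P] [ContinuousSMul ℂ P] [T2Space P]
    (h : D.Ok act O v r) (Y : Sp) (θ : Y.G →* Aˣ) (hθ : Continuous θ) {μ : Y.T → W}
    (hμ : Continuous μ) (hm : ∀ t, μ t ∈ O) (he : ∀ g t, μ (g • t) = act (θ g) (μ t)) :
    ∃ (k : KP Y) (i : k.P.W →ₗ[ℂ] P), D.IsKP Y (fun g => θ g) μ k i ∧ k.v = v ∧ k.r = r := by
  haveI := h.fin
  obtain ⟨E, i, h1, h2, h3, h4⟩ := exists_rep (Y := Y) h.rep θ hθ
  choose s hs using fun t => h2.ge (h.mem _ (hm t))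
  have h5 : Continuous fun z : Y.T × E.W => ((⟨μ z.1, hm _⟩ : O), i z.2) :=
    ((hμ.comp continuous_fst).subtype_mk _).prodMk (h1.continuous.comp continuous_snd)
  have h6 : ∀ S ≤ D.P₀, finrank ℂ (S.comap i) = finrank ℂ S := fun S hS => by
    rw [← finrank_map_of_inj (f := i) fun w _ => (map_eq_zero_iff i h1.injective).1,
      Submodule.map_comap_eq_of_le (h2 ▸ hS)]
  have h7 : ∀ t, s t ∈ (D.van (μ t)).comap i → D.s (μ t) ∈ D.van (μ t) := fun t ht => hs t ▸ ht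
  have h8 : ∀ t (S : Submodule ℂ E.W), S ≤ E.F t := fun t _ => (h3 t).ge.trans' le_top
  have h9 : E.IsSec s := ⟨fun t => h8 t ⊤ trivial, h1.continuous_iff.2
    ((h.cont.comp_continuous hμ hm).congr fun t => (hs t).symm), fun g t => h1.injective (by
      rw [h4, hs, hs, he, h.eqv _ (hm t) _ (θ g).isUnit])⟩
  let k : KP Y :=
    { P := E
      van t := (D.van (μ t)).comap i
      obs t := (D.obs (μ t)).comap i
      s := s
      v := v
      r := r
      sec := h9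
      van_closed := h.fam.closed.preimage h5
      van_rank t := (h6 _ (h.fam.le _ (hm t))).trans (h.fam.rank _ (hm t))
      van_inv g t w hw := by
        rw [Submodule.mem_comap, h4, he]
        exact h.fam.inv _ (hm t) _ (θ g).isUnit _ hw
      van_le t := h8 t _
      obs_closed := by
        convert h.obs_closed.preimage h5 using 1
        exact Set.ext fun z => and_congr_left' (by rw [Submodule.mem_comap, hs])
      obs_rank t ht := (h6 _ (h.obs_le _ (hm t) (h7 t ht))).trans (h.obs_rank _ (hm t) (h7 t ht))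
      obs_inv g t w ht hw := by
        rw [Submodule.mem_comap, h4, he]
        exact h.obs_inv _ (hm t) (h7 t ht) _ (θ g).isUnit _ hw
      le_obs t ht := Submodule.comap_mono (h.le_obs _ (hm t) (h7 t ht))
      obs_le t _ := h8 t _
      cone t w ht := cone_of_seq (van := fun t => (D.van (μ t)).comap i) fun x c u a b d => by
        refine h.cone _ (hm t) (h7 t ht) (i w) (fun n => μ (x n)) c (fun n => i (u n))
          (fun n => hm _) ((hμ.tendsto t).comp a) b ?_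
        simpa only [comp_def, map_add, map_smul, hs] using (h1.continuous.tendsto w).comp d }
  exact ⟨k, i, ⟨h1, h2, h3, h4, fun _ _ => Iff.rfl, hs, fun _ _ _ => Iff.rfl⟩, rfl, rfl⟩

end KD

end Vale.Agent.P269.Ch
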