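import Vale.Agent.P269.Vir.Gen
import Vale.Agent.P269.Orb.Brg

set_option linter.all false

/-!
# The virtual class of Kuranishi data: the two forms, uniqueness
-/

namespace Vale.Agent.P269.Ch

open Set Function Topology Filter Module Vale.Agent.P291Z Vale.Agent.P269.Orb

theorem eq_gys_of_open {X X' Z : Type} [TopologicalSpace X] [TopologicalSpace X'] [TopologicalSpace Z]
    [Nice X] [Nice X'] {i : Z → X} {i' : Z → X'} {j : X' → X} (hj : IsOpenEmbedding j)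
    (hi : IsClosedEmbedding i') (hsq : ∀ z, j (i' z) = i z) {t : Coch X} {β : BM X} {v : BM Z}
    (h : Gys i t β v) (h1 : supp (δ (pull j t)) = ∅) (h2 : supp (pull j t) ⊆ range i') :
    v = gys i' (pull j t) (res j β) := by
  refine ext_near hi isOpen_univ (subset_univ _) fun a' ha _ => ?_
  obtain ⟨a, h3, h4⟩ := exists_ext_open hj ha.1
  have h5 := isCompact_supp_of_subset (ha.1.image hj.continuous) h3
  have h6 : supp (a * t) ⊆ range j := fun x hx => image_subset_range _ _ (h3 (supp_mul _ _ hx).1)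
  have h7 := (LCo.of_supp h1 h2).mul_Zc hi ha fun y _ hy => h2 hy
  rw [ev_gys hi h1 h2 _ ha, ← ev_congr _ fun z => van_pull_sub hi.continuous.continuousAt (h4 (i' z)),
    pull_pull, show j ∘ i' = i from funext hsq, h a h5 (disjoint_left.2 ?_), ← ev_res hj β ⟨isCompact_supp_of_subset h5 fun _ hx => (supp_mul _ _ hx).1, supp_eq_empty.2 fun x => ?_⟩ h6, map_mul]
  · exact ev_congr _ fun x => van_mul_congr (h4 x) (van_refl _ _)
  · by_cases hx : x ∈ range j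
    · obtain ⟨x, rfl⟩ := hx
      refine van_of_pull hj ?_
      rw [← δ_pull, map_mul]
      exact van_δ_congr (van_mul_congr (h4 x) (van_refl _ _)) (supp_eq_empty.1 h7.2 x)
    · exact Van.δ fun h' => hx (h6 h')
  · rintro _ hx ⟨z, rfl⟩
    rw [← hsq] at hx
    exact van_of_pull hj (by rw [← δ_pull]; exact van_δ_congr (h4 _) (ha.2 z)) hx

variable {A W P : Type} [NormedRing A] [NormedAlgebra ℂ A] [NormedAddCommGroup W] [NormedSpace ℂ W]
  [AddCommGroup P] [Module ℂ P] [TopologicalSpace P] {act : A → W → W} {Z S O O' : Set W}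

section incl

variable [Holo.IsAct act O] [Holo.IsAct act O']

theorem isEmbedding_incl (e : O' ⊆ O) : IsEmbedding (Quo.incl act e) :=
  isQuo_sp.isEmbedding_map isQuo_sp (fun t => (Holo.Sp.mk_incl e t).symm) (fun g _ => ⟨g, rfl⟩)
    (Holo.Sp.isEmbedding_incl e)

theorem isOpenEmbedding_incl (e : O' ⊆ O) (h : IsOpen (Subtype.val ⁻¹' O' : Set O)) :
    IsOpenEmbedding (Quo.incl act e) :=
  isQuo_sp.isOpenEmbedding_map isQuo_sp (fun t => (Holo.Sp.mk_incl e t).symm) (fun g _ => ⟨g, rfl⟩)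
    (IsOpenEmbedding.inclusion e h)

theorem range_incl (e : O' ⊆ O) :
    range (Quo.incl act e) = Holo.Sp.mk '' {t : Holo.Sp act O | t.val ∈ O'} :=
  (isQuo_sp.range_map isQuo_sp fun t => (Holo.Sp.mk_incl e t).symm).trans
    (congrArg _ (Set.ext fun _ => Holo.Sp.mem_range_incl e))

/-- the fundamental class of an invariant open subset -/
theorem _root_.Vale.Agent.P269.IsFund.res_open [Nice (Quo act O)] (e : O' ⊆ O)
    (h : IsOpen (Subtype.val ⁻¹' O' : Set O)) {β : BM (Quo act O)} (hβ : P269.IsFund act O β) :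
    P269.IsFund act O' (res (Quo.incl act e) β) := by
  have hj := isOpenEmbedding_incl (act := act) e h
  haveI := Nice.of_isEmbedding hj.isEmbedding hj.isOpen_range.isLocallyClosed
  obtain ⟨d, h1, h2⟩ := hβ
  refine ⟨d, h1.res _, fun d' U φ hφ => ?_⟩
  have h3 : IsChart act O d' U (inclusion e ∘ φ) := ⟨hφ.isOpen, hφ.zero_mem, hφ.holo, hj.comp hφ.emb⟩
  obtain ⟨rfl, h4⟩ := h2 _ _ _ h3
  have h5 := Subtype.val_injective.extend_apply (fun z : U => Quo.mk act (φ z))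
    fun _ => Quo.mk act (φ ⟨0, hφ.zero_mem⟩)
  refine ⟨rfl, (hφ.val_iff h5).2 (Val.res hj ?_ ((h3.val_iff fun z => congrArg _ (h5 z)).1 h4))⟩
  exact (hφ.isOpen.isOpenEmbedding_subtypeVal.continuousAt_iff (x := ⟨0, hφ.zero_mem⟩)).1
    (hφ.emb.continuous.congr fun z => (h5 z).symm).continuousAt

end incl

/-- The fundamental class is unique on the invariant open parts of `S`. -/
def UF (act : A → W → W) (S : Set W) : Prop :=
  ∀ O, (∃ O', IsOpen O' ∧ O = S ∩ O') → ∀ [Holo.IsAct act O], Orb Aˣ (Holo.Sp act O) →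
    ∀ β β', P269.IsFund act O β → P269.IsFund act O β' → β = β'

theorem UF.mono (h : UF act S) (ho : ∃ U, IsOpen U ∧ O = S ∩ U) : UF act O := by
  rintro _ ⟨V, h1, rfl⟩
  obtain ⟨U, h2, rfl⟩ := ho
  exact h _ ⟨U ∩ V, h2.inter h1, inter_assoc _ _ _⟩

namespace KD

theorem IsKP.s_mem {D : KD A W P} {Y : Sp} {th : Y.G → A} {μ : Y.T → W} {k : KP Y}
    {i : k.P.W →ₗ[ℂ] P} (h : D.IsKP Y th μ k i) (t : Y.T) : D.s (μ t) ∈ D.P₀ := h.sec t ▸ h.mem _

theorem IsKP.s_eqv {D : KD A W P} {Y : Sp} {th : Y.G → A} {μ : Y.T → W} {k : KP Y}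
    {i : k.P.W →ₗ[ℂ] P} (h : D.IsKP Y th μ k i) (g : Y.G) (t : Y.T) :
    D.s (μ (g • t)) = D.ρ (th g) (D.s (μ t)) := by
  rw [← h.sec, ← h.sec, ← h.eqv, k.sec.eqv]

/-- `O` is an invariant open part of `S` with a proper locally free action, and `Z` is the zero
set in `O`. -/
structure Dom (D : KD A W P) (act : A → W → W) (Z S O : Set W) : Prop where
  sub : Z ⊆ O
  opn : ∃ O', IsOpen O' ∧ O = S ∩ O'
  isAct : Holo.IsAct act O
  orb : Orb Aˣ (Holo.Sp act O)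
  zero : ∀ x ∈ O, D.s x ∈ D.van x ↔ x ∈ Z

variable {D : KD A W P}

/-- the presented orbifold -/
noncomputable def Dom.sp (h : D.Dom act Z S O) : Sp := haveI := h.isAct; spA h.orb

/-- its identification with the orbit space -/
noncomputable def Dom.pres (h : D.Dom act Z S O) : Pres h.sp act O := haveI := h.isAct; presA h.orb

/-- presentations over a domain -/
abbrev Dom.IsKP (h : D.Dom act Z S O) (k : KP h.sp) (i : k.P.W →ₗ[ℂ] P) : Prop :=
  D.IsKP h.sp h.pres.u h.pres.i k i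

/-- `v` is the virtual class of a presentation. -/
def IsV (D : KD A W P) (act : A → W → W) (Z S : Set W) (v : BM (Quo act Z)) : Prop :=
  ∃ (O : Set W) (h : D.Dom act Z S O) (k : KP h.sp) (i : k.P.W →ₗ[ℂ] P) (β : BM (Quo act O)),
    h.IsKP k i ∧ P269.IsFund act O β ∧ v = k.vir (Quo.incl act h.sub) β

/-- An extension `P₀ / N` of the obstruction bundle. -/
structure Ext (D : KD A W P) (act : A → W → W) (Z O : Set W) (N : W → Submodule ℂ P) (r : ℕ) :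
    Prop where
  van_le : ∀ x ∈ O, D.van x ≤ N x
  le : ∀ x ∈ O, N x ≤ D.P₀
  rank : ∀ x ∈ O, finrank ℂ (N x) = r
  zero : ∀ x ∈ O, D.s x ∈ N x → x ∈ Z
  equi : ∀ x ∈ O, ∀ a, IsUnit a → ∀ f ∈ N x, D.ρ a f ∈ N (act a x)
  closed : IsClosed {z : O × P | z.2 ∈ N z.1}
  disj : ∀ x ∈ Z, ∀ f ∈ D.obs x, f ∈ N x → f ∈ D.van x
  span : ∀ x ∈ Z, ∀ f ∈ D.P₀, ∃ f' ∈ D.obs x, f - f' ∈ N x

/-- The virtual class in the form of the statement. -/
def Stm (D : KD A W P) (act : A → W → W) (Z S : Set W) (v : BM (Quo act Z)) : Prop :=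
  ∃ (O : Set W) (hO : Z ⊆ O) (N : W → Submodule ℂ P) (r : ℕ) (β : BM (Quo act O))
    (t : Coch (Tot act D.ρ O (fun _ => D.P₀) N)), (∃ O', IsOpen O' ∧ O = S ∩ O') ∧
    (∀ a, IsUnit a → ∀ x ∈ O, act a x ∈ O) ∧ LocallyCompactSpace O ∧ T2Space (Quo act O) ∧
    T2Space (Tot act D.ρ O (fun _ => D.P₀) N) ∧ D.Ext act Z O N r ∧ P269.IsFund act O β ∧
    IsThomOf act D.ρ O (fun _ => D.P₀) N t ∧
    Gys (Quo.incl act hO) (pull (sec act D.ρ O (fun _ => D.P₀) N D.s) t) β v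

theorem Ext.mono {N : W → Submodule ℂ P} {r : ℕ} (h : D.Ext act Z O N r) (e : O' ⊆ O) :
    D.Ext act Z O' N r :=
  ⟨fun x hx => h.van_le x (e hx), fun x hx => h.le x (e hx), fun x hx => h.rank x (e hx),
    fun x hx => h.zero x (e hx), fun x hx => h.equi x (e hx),
    h.closed.preimage ((continuous_inclusion e).prodMap continuous_id), h.disj, h.span⟩

namespace Dom

variable (h : D.Dom act Z S O)
include h

theorem nice : Nice (Quo act O) := inferInstanceAs (Nice h.sp.X)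

theorem niceT : Nice O := haveI := h.isAct; h.orb.nice

theorem subset : O ⊆ S := h.opn.elim fun _ h => h.2 ▸ inter_subset_left

theorem isOpen {O₁ : Set W} (e : O₁ ⊆ S) : IsOpen (Subtype.val ⁻¹' O : Set O₁) := by
  obtain ⟨U, h1, rfl⟩ := h.opn
  convert h1.preimage continuous_subtype_val using 1
  exact Set.ext fun x => and_iff_right (e x.2)

/-- shrinking a domain -/
theorem inter {U : Set W} (hU : IsOpen U) (e : Z ⊆ U)
    (hi : ∀ a, IsUnit a → ∀ x ∈ O ∩ U, act a x ∈ U) : D.Dom act Z S (O ∩ U) := by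
  haveI := h.isAct.mono inter_subset_left fun a ha x hx => ⟨h.isAct.mem a ha x hx.1, hi a ha x hx⟩
  haveI := h.isAct
  haveI := h.orb.nice
  have h1 : IsOpenEmbedding (Holo.Sp.incl act (inter_subset_left : O ∩ U ⊆ O)) :=
    IsOpenEmbedding.inclusion inter_subset_left (by
      convert hU.preimage continuous_subtype_val using 1
      exact Set.ext fun x => and_iff_right x.2)
  haveI := Nice.of_isEmbedding h1.isEmbedding h1.isOpen_range.isLocallyClosed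
  obtain ⟨V, h2, h3⟩ := h.opn
  exact ⟨subset_inter h.sub e, ⟨V ∩ U, h2.inter hU, by rw [h3, inter_assoc]⟩, ‹_›,
    h.orb.of_map h1.continuous fun _ _ => rfl, fun x hx => h.zero x hx.1⟩

theorem inter' (e : Z ⊆ O') (ho : ∃ U, IsOpen U ∧ O' = S ∩ U)
    (hi : ∀ a, IsUnit a → ∀ x ∈ O', act a x ∈ O') : D.Dom act Z S (O ∩ O') := by
  obtain ⟨U, h1, rfl⟩ := ho
  rw [← inter_assoc, inter_eq_left.2 h.subset]
  exact h.inter h1 (e.trans inter_subset_right) fun a ha x hx => (hi a ha x ⟨h.subset hx.1, hx.2⟩).2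

/-- the inclusion of domains -/
noncomputable def incl {D' : KD A W P} {Z' S' : Set W} (h' : D'.Dom act Z' S' O') (e : O' ⊆ O) :
    Mor h'.sp h.sp :=
  ⟨MonoidHom.id _, Holo.Sp.incl act e, continuous_id, (Holo.Sp.isEmbedding_incl e).continuous,
    fun _ _ => rfl⟩

theorem incl_map {D' : KD A W P} {Z' S' : Set W} (h' : D'.Dom act Z' S' O') (e : O' ⊆ O) :
    ⇑(h.incl h' e).map = Quo.incl act e := ((h.incl h' e).map_eq fun _ => rfl).symm

variable {k : KP h.sp} {i : k.P.W →ₗ[ℂ] P} (hk : h.IsKP k i)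
include hk

theorem mem_Zs {t : h.sp.T} : t ∈ k.Zs ↔ h.pres.i t ∈ Z := hk.mem_Zs.trans (h.zero _ (h.pres.mem t))

theorem isActZ : Holo.IsAct act Z := h.isAct.mono h.sub (by
  rintro _ ⟨g, rfl⟩ x hx
  exact (h.mem_Zs hk).1 (k.smul_mem_Zs g (Holo.Sp.of act x (h.sub hx)) ((h.mem_Zs hk).2 hx)))

theorem range_incl : range (Quo.incl act h.sub) = k.Z :=
  haveI := h.isAct
  haveI := h.isActZ hk
  (Ch.range_incl h.sub).trans (congrArg _ (Set.ext fun _ => (h.mem_Zs hk).symm))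

theorem isZ : k.IsZ (Quo.incl act h.sub) :=
  haveI := h.isAct
  haveI := h.isActZ hk
  KP.IsZ.of_range (isEmbedding_incl h.sub) (h.range_incl hk)

theorem niceZ : Nice (Quo act Z) := (h.isZ hk).nice

theorem isKP_pb (h' : D.Dom act Z S O') (e : O' ⊆ O) : h'.IsKP (k.pb (h.incl h' e)) i :=
  hk.pb (h.incl h' e)

theorem vir_res (h' : D.Dom act Z S O') (e : O' ⊆ O) {k' : KP h'.sp} {i' : k'.P.W →ₗ[ℂ] P}
    (hk' : h'.IsKP k' i') (β : BM (Quo act O)) : k.vir (Quo.incl act h.sub) β =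
      k'.vir (Quo.incl act h'.sub) (@res _ _ _ _ h.nice (Quo.incl act e) β) := by
  haveI := h.isAct
  haveI := h'.isAct
  have := hk.cmp hk' (h.incl h' e) (fun _ => rfl) fun _ => rfl
  rw [h.incl_map] at this
  exact this.vir_res (isOpenEmbedding_incl e (h'.isOpen h.subset)) (h.isZ hk) (h'.isZ hk')
    (fun z => Quot.inductionOn z fun _ => rfl) β

variable [IsTopologicalAddGroup P] [ContinuousSMul ℂ P] [T2Space P] {N : W → Submodule ℂ P} {r : ℕ}
  (hN : D.Ext act Z O N r)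
include hN

theorem exists_isMod : ∃ (E₀ E : VB h.sp) (ι : E₀.W →ₗ[ℂ] P) (M : h.sp.T → E₀.W →ₗ[ℂ] E.W)
    (s : h.sp.T → E.W) (hs : E.IsSec s), IsMod h.pres D.ρ (fun _ => D.P₀) N E₀ E ι M ∧
    (∀ t, ∃ w ∈ E₀.F t, ι w = D.s (h.pres.i t) ∧ M t w = s t) ∧ (∀ t, s t = 0 → t ∈ k.Zs) ∧
    LCoh k.Z k.eul hs.eul := by
  haveI := hk.fin
  have hB : IsFam act D.ρ O D.P₀ (fun _ => D.P₀) (finrank ℂ D.P₀) :=
    ⟨fun _ _ => le_rfl, D.P₀.closed_of_finiteDimensional.preimage continuous_snd, fun _ _ => rfl, by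
      rintro - - _ ⟨g, rfl⟩ q hq
      obtain ⟨w, rfl⟩ := hk.lift hq
      exact (congrArg (· ∈ D.P₀) (hk.eqv g w)).mp (hk.mem _)⟩
  have hF : IsFam act D.ρ O D.P₀ N r := ⟨hN.le, hN.closed, hN.rank, hN.equi⟩
  obtain ⟨E, M, h1, h2, -⟩ := exists_isMod_of_rep h.pres hB hF hN.le k.P hk.emb hk.range hk.eqv
  have h3 : ∀ t w, M t w = 0 ↔ i w ∈ N (h.pres.i t) := fun t w => h2.ker t w (hk.mem w)
  have h4 : k.Pre (Mor.id _) E M := ⟨Hom.of_continuous (fun t w _ => h2.hom.mem t w (hk.mem w))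
      (h2.hom.continuous continuous_fst continuous_snd fun z => hk.mem z.2)
      fun g t w _ => h2.hom.eqv g t w (hk.mem w),
    fun t w hw => (h3 t w).2 (hN.van_le _ (h.pres.mem t) ((hk.van t w).1 hw)),
    fun t ht w hw e => (hk.van t w).2
      (hN.disj _ ((h.mem_Zs hk).1 ht) _ ((hk.obs t ht w).1 hw) ((h3 t w).1 e))⟩
  refine ⟨hB.vb h.pres k.P hk.emb hk.range hk.eqv, E, i, M, _, h4.isSec, h2, fun t => ⟨k.s t, hk.mem _, hk.sec t, rfl⟩, fun t ht =>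
    (h.mem_Zs hk).2 (hN.zero _ (h.pres.mem t) (hk.sec t ▸ (h3 t _).1 ht)), ?_⟩
  rcases eq_empty_or_nonempty k.Zs with h5 | ⟨t, ht⟩
  · exact LCoh.of_van (by simp [KP.Z, h5])
  refine KP.Model.lcoh' ⟨h4, ?_⟩
  have h5 := finrank_inf_ker (k.obs t) (M t)
  rw [show k.obs t ⊓ LinearMap.ker (M t) = k.van t from le_antisymm
    (fun w hw => h4.ker t ht w hw.1 hw.2) fun w hw => ⟨k.le_obs t ht hw, h4.van t w hw⟩,
    show (k.obs t).map (M t) = E.F t from le_antisymm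
      (by rintro _ ⟨w, -, rfl⟩; exact h2.hom.mem t w (hk.mem w)) fun w hw => ?_,
    k.van_rank, k.obs_rank t ht, E.rank] at h5
  · omega
  · obtain ⟨w, -, rfl⟩ := h2.surj t w hw
    obtain ⟨f, h6, h7⟩ := hN.span _ ((h.mem_Zs hk).1 ht) _ (hk.mem w)
    obtain ⟨u, hu⟩ := hk.lift (hN.le _ (h.pres.mem t) h7)
    exact ⟨w - u, (hk.obs t ht _).2 (by rwa [map_sub, hu, sub_sub_cancel]), by
      rw [map_sub, (h3 t u).2 (hu ▸ h7), sub_zero]⟩

theorem vir_eq_gys {t : Coch (Tot act D.ρ O (fun _ => D.P₀) N)}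
    (ht : IsThomOf act D.ρ O (fun _ => D.P₀) N t) :
    supp (δ (pull (sec act D.ρ O (fun _ => D.P₀) N D.s) t)) = ∅ ∧
    supp (pull (sec act D.ρ O (fun _ => D.P₀) N D.s) t) ⊆ range (Quo.incl act h.sub) ∧
    k.vir (Quo.incl act h.sub) = @gys _ _ _ _ h.nice (Quo.incl act h.sub)
      (pull (sec act D.ρ O (fun _ => D.P₀) N D.s) t) := by
  obtain ⟨E₀, E, ι, M, s, hs, h1, h2, h3, h4⟩ := h.exists_isMod hk hN
  have h5 := h1.isCo_sec hs h2 ht
  have h6 : h.pres.mk' '' {t | s t = 0} ⊆ range (Quo.incl act h.sub) :=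
    (image_mono h3).trans (h.range_incl hk).ge
  have h7 := h1.cohom_sec hs h2 ht
  rw [show pull h.pres.e hs.eul = hs.eul from pull_id _] at h7
  have h8 := h.isZ hk
  exact ⟨h5.cocycle, h5.supp.trans h6, (h8.vir_eq h4).trans ((lgys_cohom h8.emb (h8.lco' h4)
    (LCo.of_supp h5.cocycle (h5.supp.trans h6)) (Isol.of_subset h6) h7.symm).trans
    (lgys_eq_gys h8.emb h5.cocycle (h5.supp.trans h6)))⟩

end Dom

theorem Dom.isV (h : D.Dom act Z S O) {k : KP h.sp} {i : k.P.W →ₗ[ℂ] P} (hk : h.IsKP k i)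
    {β : BM (Quo act O)} (hβ : P269.IsFund act O β) :
    D.IsV act Z S (k.vir (Quo.incl act h.sub) β) := ⟨O, h, k, i, β, hk, hβ, rfl⟩

/-- **uniqueness**: the virtual class can be computed in every domain -/
theorem IsV.eq_vir' (hU : UF act O) {v : BM (Quo act Z)} (hv : D.IsV act Z S v)
    (h : D.Dom act Z S O) {k : KP h.sp} {i : k.P.W →ₗ[ℂ] P} (hk : h.IsKP k i) {β : BM (Quo act O)}
    (hβ : P269.IsFund act O β) : v = k.vir (Quo.incl act h.sub) β := by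
  obtain ⟨O₁, h₁, k₁, i₁, β₁, h1, h2, rfl⟩ := hv
  have h₂ := h.inter' h₁.sub h₁.opn h₁.isAct.mem
  have h3 := h.isKP_pb hk h₂ inter_subset_left
  haveI := h.isAct
  haveI := h₁.isAct
  haveI := h₂.isAct
  haveI := h.nice
  haveI := h₁.nice
  rw [h.vir_res hk h₂ inter_subset_left h3, h₁.vir_res h1 h₂ inter_subset_right h3,
    hU _ (h₁.opn.imp fun U h4 => ⟨h4.1, by rw [h4.2, ← inter_assoc, inter_eq_left.2 h.subset]⟩)
      h₂.orb _ _ (hβ.res_open inter_subset_left (h₂.isOpen h.subset))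
      (h2.res_open inter_subset_right (h₂.isOpen h₁.subset))]

theorem IsV.eq_vir (hU : UF act S) {v : BM (Quo act Z)} (hv : D.IsV act Z S v)
    (h : D.Dom act Z S O) {k : KP h.sp} {i : k.P.W →ₗ[ℂ] P} (hk : h.IsKP k i) {β : BM (Quo act O)}
    (hβ : P269.IsFund act O β) : v = k.vir (Quo.incl act h.sub) β :=
  hv.eq_vir' (hU.mono h.opn) h hk hβ

theorem IsV.unique (hU : UF act S) {v v' : BM (Quo act Z)} (hv : D.IsV act Z S v)
    (hv' : D.IsV act Z S v') : v = v' :=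
  let ⟨_, h, _, _, _, h1, h2, h3⟩ := hv'
  (hv.eq_vir hU h h1 h2).trans h3.symm

variable [IsTopologicalAddGroup P] [ContinuousSMul ℂ P] [T2Space P] {v : BM (Quo act Z)}

theorem Dom.exists_isKP (h : D.Dom act Z S O) {O₀ : Set W} {n r : ℕ} (hD : D.Ok act O₀ n r)
    (e : O ⊆ O₀) : ∃ (k : KP h.sp) (i : k.P.W →ₗ[ℂ] P), h.IsKP k i ∧ k.v = n ∧ k.r = r :=
  hD.exists_isKP h.sp (MonoidHom.id _) continuous_id h.pres.emb.continuous
    (fun t => e (h.pres.mem t)) fun _ _ => rfl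

/-- the class of the statement is the virtual class of a presentation -/
theorem Stm.isV [FiniteDimensional ℂ W] [Holo.IsAct act S] (hv : D.Stm act Z S v)
    (h₁ : D.Dom act Z S O') {k : KP h₁.sp} {i : k.P.W →ₗ[ℂ] P} (hk : h₁.IsKP k i) :
    D.IsV act Z S v := by
  obtain ⟨O, hO, N, r, β, t, ho, hi, h1, h2, -, hN, hβ, ht, hg⟩ := hv
  have h₂ := h₁.inter' hO ho hi
  have hS : O ⊆ S := ho.elim fun _ h => h.2 ▸ inter_subset_left
  haveI := Holo.IsAct.mono ‹_› hS hi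
  haveI := h₂.isAct
  haveI := h₂.nice
  haveI := FiniteDimensional.proper ℂ W
  haveI : Nice (Quo act O) := ⟨h2, isQuo_sp.oq.locallyCompactSpace,
    isQuo_sp.oq.isQuotientMap.secondCountableTopology isQuo_sp.isOpenMap⟩
  have h3 := h₁.isKP_pb hk h₂ inter_subset_left
  let J : Tot act D.ρ (O' ∩ O) (fun _ => D.P₀) N → Tot act D.ρ O (fun _ => D.P₀) N :=
    Quot.map (fun z => ⟨z.1, z.2.1.2, z.2.2⟩) fun _ _ h => h
  have h4 : ∀ f ∈ D.P₀, D.ρ 1 f = f := fun f hf => by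
    obtain ⟨w, rfl⟩ := hk.lift hf
    exact (hk.eqv 1 w).symm.trans (congrArg i (one_smul _ w))
  have h4' : ∀ (g : Aˣ), ∀ f ∈ D.P₀, D.ρ g⁻¹.1 (D.ρ g f) = f := fun (g : h₁.sp.G) f hf => by
    obtain ⟨w, rfl⟩ := hk.lift hf
    exact (congrArg _ (hk.eqv g w).symm).trans
      ((hk.eqv g⁻¹ _).symm.trans (congrArg i (inv_smul_smul g w)))
  have h5 : IsThomOf act D.ρ (O' ∩ O) (fun _ => D.P₀) N (pull J t) := by
    refine IsThom.pull ht (continuous_quot_lift _ (continuous_quot_mk.comp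
      (continuous_subtype_val.subtype_mk _))) ?_ ?_
    · rintro ⟨y⟩ ⟨x, h6, h7⟩
      have h8 := congrArg (Quot.lift (fun z => z.1.2 ∈ N z.1.1) ?_) h7
      · refine ⟨⟨(y.1.1, 0), y.2.1, zero_mem _⟩, rfl, Quot.sound ⟨1, isUnit_one,
          (h₂.isAct.one _ y.2.1).symm, ?_⟩⟩
        rw [h4 _ y.2.2]
        exact sub_mem (zero_mem _) (h8.mpr (h6 ▸ zero_mem (N x.1.1) :))
      · rintro ⟨⟨x, f⟩, a, b⟩ ⟨⟨x', f'⟩, _⟩ ⟨_, ⟨g, rfl⟩, rfl : x' = _, c⟩
        refine propext ⟨fun d => ?_, fun d => ?_⟩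
        · simpa using add_mem c (hN.equi x a _ g.isUnit f d)
        · have := hN.equi _ (hi _ g.isUnit x a) _ g⁻¹.isUnit _ (sub_mem d c)
          rwa [sub_sub_cancel, h4' g f b, show act _ (act g x) = x from
              congrArg Holo.Sp.val (inv_smul_smul g (Holo.Sp.of act x a))] at this
    · rintro r φ ⟨x, hx, ℓ, a, b, c⟩
      exact ⟨x, hx.2, ℓ, a, b, fun u => let ⟨d, e⟩ := c u; ⟨⟨d.1.2, d.2⟩, congrArg J e⟩⟩
  have h6 : sec act D.ρ O (fun _ => D.P₀) N D.s ∘ Quo.incl act inter_subset_right =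
      J ∘ sec act D.ρ (O' ∩ O) (fun _ => D.P₀) N D.s := funext fun z => by
    obtain ⟨g, hg⟩ := Holo.Sp.exists_smul_out (Holo.Sp.incl act inter_subset_right (z.out : ↥(O' ∩ O)))
    have h7 : (Quo.incl act inter_subset_right z).out.1 = act g z.out.1 :=
      (congrArg (fun y => (Quo.incl act inter_subset_right y).out.1) (Holo.Sp.mk_out z).symm).trans
        (congrArg Holo.Sp.val hg.symm)
    have h8 : D.s z.out.1 ∈ D.P₀ := h3.s_mem z.out
    have h9 : D.s (act g z.out.1) = D.ρ g (D.s z.out.1) := h3.s_eqv g z.out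
    have h10 : D.s (act g z.out.1) ∈ D.P₀ := h3.s_mem ⟨_, h₂.isAct.mem _ g.isUnit _ z.out.2⟩
    refine (Quot.sound ⟨g, g.isUnit, h7, ?_⟩).symm
    dsimp only
    rw [h7, if_pos h8, if_pos h10, h9, sub_self]
    exact zero_mem _
  obtain ⟨a, b, c⟩ := h₂.vir_eq_gys h3 (hN.mono inter_subset_right) h5
  rw [pull_pull, ← h6, ← pull_pull] at a b c
  exact ⟨_, h₂, _, i, _, h3, hβ.res_open inter_subset_right (h₂.isOpen hS), c ▸ eq_gys_of_open
    (isOpenEmbedding_incl _ (h₂.isOpen hS)) (h₂.isZ h3).emb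
    (fun z => Quot.inductionOn z fun _ => rfl) hg a b⟩

/-- the virtual class of a presentation is a class as in the statement -/
theorem IsV.stm (hv : D.IsV act Z S v) (hle : ∀ x ∈ S, D.van x ≤ D.P₀) : D.Stm act Z S v := by
  obtain ⟨O, h, k, i, β, hk, hβ, rfl⟩ := hv
  obtain ⟨U, hU, E, M, h1, h2, h3, h4⟩ := k.exists_model
  obtain ⟨V, hV, e⟩ := isOpen_induced_iff.1 hU
  have h₂ := h.inter hV (fun x hx => e.ge (h1 ((h.mem_Zs hk (t := ⟨x, h.sub hx⟩)).2 hx))) (by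
    rintro _ ⟨g, rfl⟩ x hx
    exact e.ge (U.smul_mem (show h.sp.G from g) (e.le (show (⟨x, hx.1⟩ : O) ∈ _ from hx.2))))
  let τ : ↥(O ∩ V) → U := fun x => ⟨⟨x.1, x.2.1⟩, e.le x.2.2⟩
  have hτ : Continuous τ := (continuous_subtype_val.subtype_mk _).subtype_mk _
  let N : W → Submodule ℂ P := fun x => ⨆ hx : x ∈ O ∩ V, (LinearMap.ker (M (τ ⟨x, hx⟩))).map i
  have h5 : ∀ x (hx : x ∈ O ∩ V), N x = (LinearMap.ker (M (τ ⟨x, hx⟩))).map i := fun x hx =>
    iSup_pos hx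
  have h6 : ∀ x (hx : x ∈ O ∩ V) w, i w ∈ N x ↔ M (τ ⟨x, hx⟩) w = 0 := fun x hx w => by
    rw [h5 x hx]
    exact ⟨fun ⟨_, a, b⟩ => hk.emb.injective b ▸ a, fun a => ⟨w, a, rfl⟩⟩
  have h7 : ∀ x ∈ O ∩ V, N x ≤ D.P₀ := fun x hx => by
    rw [h5 x hx]
    rintro _ ⟨w, -, rfl⟩
    exact hk.mem w
  have h8 : ∀ x (hx : x ∈ Z), (τ ⟨x, h₂.sub hx⟩).1 ∈ k.Zs := fun x hx => (h.mem_Zs hk).2 hx
  haveI := hk.fin
  have hN : D.Ext act Z (O ∩ V) N (finrank ℂ k.P.W - E.r) := by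
    refine ⟨fun x hx f hf => ?_, h7, fun x hx => ?_, fun x hx a => (h.mem_Zs hk).1 ((h3 (τ ⟨x, hx⟩)).1
      ((h6 x hx _).1 ((hk.sec (τ ⟨x, hx⟩).1).symm ▸ a))), ?_, ?_, fun x hx f a b => ?_,
      fun x hx f a => ?_⟩
    · obtain ⟨w, rfl⟩ := hk.lift (hle x (h₂.subset hx) hf)
      exact (h6 x hx w).2 (h2.van _ w ((hk.van _ w).2 hf))
    · have := (M (τ ⟨x, hx⟩)).finrank_range_add_finrank_ker
      rw [show LinearMap.range (M (τ ⟨x, hx⟩)) = E.F (τ ⟨x, hx⟩) from le_antisymm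
        (by rintro _ ⟨w, rfl⟩; exact h2.hom.mem _ w (hk.memF _ w))
        fun w hw => (h4 _ w hw).imp fun _ h => h.2, E.rank (τ ⟨x, hx⟩)] at this
      rw [h5 x hx, finrank_map_of_inj fun w _ => (map_eq_zero_iff i hk.emb.injective).1]
      omega
    · rintro x hx _ ⟨g, rfl⟩ f hf
      obtain ⟨w, rfl⟩ := hk.lift (h7 x hx hf)
      exact (congrArg (· ∈ _) (hk.eqv g w)).mp ((h6 _ (h₂.isAct.mem _ g.isUnit x hx) _).2
        ((h2.hom.eqv g (τ ⟨x, hx⟩) w (hk.memF _ w)).trans ((congrArg _ ((h6 x hx w).1 hf)).trans (smul_zero _))))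
    · have h9 : IsClosedEmbedding (Prod.map id i : ↥(O ∩ V) × k.P.W → _) := IsClosedEmbedding.id.prodMap
        ⟨hk.emb, (LinearMap.range i).closed_of_finiteDimensional⟩
      convert h9.isClosedMap _ (isClosed_eq (h2.hom.continuous (hτ.comp continuous_fst) continuous_snd
        fun z => hk.memF _ z.2) (continuous_const (y := 0))) using 1
      refine Set.ext fun z => ⟨fun a => ?_, ?_⟩
      · obtain ⟨w, hw⟩ := hk.lift (h7 _ z.1.2 a)
        exact ⟨(z.1, w), (h6 _ z.1.2 w).1 (hw ▸ a), Prod.ext rfl hw⟩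
      · rintro ⟨z, a, rfl⟩
        exact (h6 _ z.1.2 z.2).2 a
    · obtain ⟨w, rfl⟩ := hk.lift (h7 x (h₂.sub hx) b)
      exact (hk.van _ w).1 (h2.ker (τ ⟨x, h₂.sub hx⟩) (h8 x hx) w ((hk.obs _ (h8 x hx) w).2 a)
        ((h6 x _ w).1 b))
    · obtain ⟨w, rfl⟩ := hk.lift a
      have h9 := finrank_inf_ker (k.obs (τ ⟨x, h₂.sub hx⟩).1) (M (τ ⟨x, h₂.sub hx⟩))
      rw [show k.obs _ ⊓ LinearMap.ker (M (τ ⟨x, h₂.sub hx⟩)) = k.van _ from le_antisymm
        (fun w hw => h2.ker (τ ⟨x, h₂.sub hx⟩) (h8 x hx) w hw.1 hw.2)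
        fun w hw => ⟨k.le_obs _ (h8 x hx) hw, h2.van (τ ⟨x, h₂.sub hx⟩) w hw⟩, k.van_rank, k.obs_rank _ (h8 x hx)] at h9
      obtain ⟨u, b, c⟩ := (Submodule.eq_of_le_of_finrank_eq (S₁ := (k.obs (τ ⟨x, h₂.sub hx⟩).1).map
        (M (τ ⟨x, h₂.sub hx⟩))) (by rintro _ ⟨w, -, rfl⟩; exact h2.hom.mem _ w (hk.memF _ w))
        (by rw [E.rank, h2.rank]; omega)).ge (h2.hom.mem _ w (hk.memF _ w))
      exact ⟨i u, (hk.obs _ (h8 x hx) u).1 b, map_sub i w u ▸ (h6 x (h₂.sub hx) _).2 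
        ((map_sub _ w u).trans (sub_eq_zero.2 c.symm))⟩
  have h9 := h.isKP_pb hk h₂ inter_subset_left
  obtain ⟨_, _, _, _, _, -, hM, -⟩ := h₂.exists_isMod h9 hN
  obtain ⟨t, ht⟩ := hM.exists_isThomOf
  obtain ⟨a, b, c⟩ := h₂.vir_eq_gys h9 hN ht
  haveI := h.isAct
  haveI := h₂.isAct
  haveI := h.nice
  haveI := h₂.nice
  haveI := h₂.niceZ h9
  exact ⟨_, h₂.sub, N, _, _, t, h₂.opn, h₂.isAct.mem, h₂.niceT.lc, inferInstance, hM.t2Space, hN,
    hβ.res_open inter_subset_left (h₂.isOpen h.subset), ht, (Gys_iff (h₂.isZ h9).emb a b).2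
      (by rw [h.vir_res hk h₂ inter_subset_left h9, c]; rfl)⟩

end KD

end Vale.Agent.P269.Ch
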