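import Mathlib

/-!
# The linearised equations at one point
-/

set_option linter.unusedSectionVars false

namespace Vale.Agent.P269.Vir

open Set Function Topology Filter Module

section Kos

variable {Θ : Type} [AddCommGroup Θ] [Module ℂ Θ] {t Y : Θ →ₗ[ℂ] ℂ} {m0 : Θ}

/-- the Koszul relations -/
def kos (t Y : Θ →ₗ[ℂ] ℂ) (m : Θ × Θ) : ℂ := t m.2 * Y m.1 - t m.1 * Y m.2

theorem kos_self (c : ℂ) (m : Θ × Θ) : kos t (c • t) m = 0 := by
  simp only [kos, LinearMap.smul_apply, smul_eq_mul]; ring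

theorem kos_add (Y' : Θ →ₗ[ℂ] ℂ) (m : Θ × Θ) : kos t (Y + Y') m = kos t Y m + kos t Y' m := by
  simp only [kos, LinearMap.add_apply]; ring

theorem kos_sub (Y' : Θ →ₗ[ℂ] ℂ) (m : Θ × Θ) : kos t (Y - Y') m = kos t Y m - kos t Y' m := by
  simp only [kos, LinearMap.sub_apply]; ring

theorem kos_smul (c : ℂ) (m : Θ × Θ) : kos t (c • Y) m = c * kos t Y m := by
  simp only [kos, LinearMap.smul_apply, smul_eq_mul]; ring

@[simp] theorem kos_zero (m : Θ × Θ) : kos t 0 m = 0 := by simp [kos]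

theorem eq_of_kos (h0 : t m0 ≠ 0) (h : ∀ m, kos t Y (m, m0) = 0) : Y = (Y m0 / t m0) • t :=
  LinearMap.ext fun m => by
    have := h m
    simp only [kos] at this
    rw [LinearMap.smul_apply, smul_eq_mul]
    field_simp
    linear_combination this

end Kos

/-- `dim K = dim N + dim F - dim L` for `0 → N → K → Q → 0` and `0 → L → F → Q → 0` -/
theorem finrank_two {F L N K Q : Type} [AddCommGroup F] [Module ℂ F] [AddCommGroup L] [Module ℂ L]
    [AddCommGroup N] [Module ℂ N] [AddCommGroup K] [Module ℂ K] [AddCommGroup Q] [Module ℂ Q]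
    [FiniteDimensional ℂ F] [FiniteDimensional ℂ N] (e : F →ₗ[ℂ] K) (p : K →ₗ[ℂ] Q)
    (i : L →ₗ[ℂ] F) (n : N →ₗ[ℂ] K) (hi : Injective i) (hn : Injective n)
    (h1 : ∀ κ, ∃ Y, p (e Y) = p κ) (h2 : ∀ Y, p (e Y) = 0 ↔ ∃ η, i η = Y)
    (h3 : ∀ κ, p κ = 0 ↔ ∃ c, n c = κ) :
    FiniteDimensional ℂ K ∧ finrank ℂ K + finrank ℂ L = finrank ℂ N + finrank ℂ F := by
  have fin : FiniteDimensional ℂ K := Module.Finite.of_surjective (e.coprod n) fun κ => by
    obtain ⟨Y, hY⟩ := h1 κ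
    obtain ⟨c, hc⟩ := (h3 (κ - e Y)).1 (by rw [map_sub, hY, sub_self])
    exact ⟨(Y, c), by simp [hc]⟩
  have a := LinearMap.finrank_range_add_finrank_ker p
  have b := LinearMap.finrank_range_add_finrank_ker (p ∘ₗ e)
  rw [show LinearMap.ker p = LinearMap.range n from Submodule.ext h3,
    LinearMap.finrank_range_of_inj hn] at a
  rw [show LinearMap.ker (p ∘ₗ e) = LinearMap.range i from Submodule.ext h2,
    LinearMap.finrank_range_of_inj hi, show LinearMap.range (p ∘ₗ e) = LinearMap.range p from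
      le_antisymm (LinearMap.range_comp_le_range _ _) (by rintro _ ⟨κ, rfl⟩; exact h1 κ)] at b
  exact ⟨fin, by omega⟩

variable {J K Z : Type} [Fintype J] {Θ : J → Type} [∀ j, AddCommGroup (Θ j)]
  [∀ j, Module ℂ (Θ j)]

/-- the values of the equations at a point -/
abbrev Fib (Θ : J → Type) (K Z : Type) : Type := (∀ j, Θ j × Θ j → ℂ) × (K → Z → ℂ)

/-- thickened fields which vanish off `mov` -/
def mv (Θ : J → Type) [∀ j, AddCommGroup (Θ j)] [∀ j, Module ℂ (Θ j)] (V : J → Type)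
    [∀ j, AddCommGroup (V j)] [∀ j, Module ℂ (V j)] (mov : Set J) :
    Submodule ℂ (∀ j, Θ j →ₗ[ℂ] V j) := Submodule.pi movᶜ fun _ => ⊥

theorem mem_mv {V : J → Type} [∀ j, AddCommGroup (V j)] [∀ j, Module ℂ (V j)] {mov : Set J}
    {Y : ∀ j, Θ j →ₗ[ℂ] V j} : Y ∈ mv Θ V mov ↔ ∀ j ∉ mov, Y j = 0 := Iff.rfl

/-- restriction to the movable fields -/
noncomputable def mvEquiv (V : J → Type) [∀ j, AddCommGroup (V j)] [∀ j, Module ℂ (V j)]
    (mov : Set J) : mv Θ V mov ≃ₗ[ℂ] ∀ j : mov, Θ j →ₗ[ℂ] V j :=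
  LinearEquiv.ofBijective (LinearMap.pi fun j => LinearMap.proj j.1 ∘ₗ (mv Θ V mov).subtype)
    ⟨fun Y Y' h => Subtype.ext (funext fun j => by
      by_cases hj : j ∈ mov
      exacts [congrFun h ⟨j, hj⟩, (Y.2 j hj).trans (Y'.2 j hj).symm]), fun Y => by
      classical
      exact ⟨⟨fun j => if h : j ∈ mov then Y ⟨j, h⟩ else 0, fun j hj => dif_neg hj⟩,
        funext fun j => dif_pos j.2⟩⟩

instance {V : J → Type} [∀ j, AddCommGroup (V j)] [∀ j, Module ℂ (V j)] {mov : Set J}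
    [∀ j, FiniteDimensional ℂ (Θ j)] [∀ j, FiniteDimensional ℂ (V j)] :
    FiniteDimensional ℂ (mv Θ V mov) := inferInstance

theorem finrank_mv (V : J → Type) [∀ j, AddCommGroup (V j)] [∀ j, Module ℂ (V j)] (mov : Set J)
    [Fintype mov] [∀ j, FiniteDimensional ℂ (Θ j)] [∀ j, FiniteDimensional ℂ (V j)] :
    finrank ℂ (mv Θ V mov) = ∑ j : mov, finrank ℂ (Θ j) * finrank ℂ (V j) := by
  rw [(mvEquiv V mov).finrank_eq, finrank_pi_fintype]
  exact Finset.sum_congr rfl fun j _ => finrank_linearMap _ _ _ _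

/-- the image of the Jacobian matrix `g` on the movable directions -/
def Wg (g : K → J → ℂ) (mov : Set J) : Submodule ℂ (K → ℂ) where
  carrier := {c | ∃ η : J → ℂ, (∀ j ∉ mov, η j = 0) ∧ ∀ k, ∑ j, g k j * η j = c k}
  add_mem' := fun ⟨η, a, b⟩ ⟨η', a', b'⟩ => ⟨η + η', fun j h => by simp [a j h, a' j h], fun k => by
    simp [mul_add, Finset.sum_add_distrib, b, b']⟩
  zero_mem' := ⟨0, fun _ _ => rfl, by simp⟩
  smul_mem' := fun t _ ⟨η, a, b⟩ => ⟨t • η, fun j h => by simp [a j h], fun k => by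
    simp [← b, Finset.mul_sum, mul_left_comm]⟩

/-- The rows `K₀` of `g` are independent and span the row space (movable directions only). -/
structure Jac (g : K → J → ℂ) (mov : Set J) (K₀ : Set K) : Prop where
  ind : ∀ c : K → ℂ, ∃ η : J → ℂ, (∀ j ∉ mov, η j = 0) ∧ ∀ k ∈ K₀, ∑ j, g k j * η j = c k
  red : ∀ η : J → ℂ, (∀ j ∉ mov, η j = 0) → (∀ k ∈ K₀, ∑ j, g k j * η j = 0) →
    ∀ k, ∑ j, g k j * η j = 0

section Jac

variable {g : K → J → ℂ} {mov : Set J} {K₀ : Set K}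

theorem jac_univ (h : ∀ c : K → ℂ, ∃ η : J → ℂ, (∀ j ∉ mov, η j = 0) ∧ ∀ k, ∑ j, g k j * η j = c k) :
    Jac g mov univ := ⟨fun c => (h c).imp fun _ a => ⟨a.1, fun k _ => a.2 k⟩,
      fun _ _ a k => a k trivial⟩

theorem Jac.eq_zero (h : Jac g mov K₀) {c : K → ℂ} (hc : c ∈ Wg g mov) (h0 : ∀ k ∈ K₀, c k = 0) :
    c = 0 :=
  let ⟨η, a, b⟩ := hc
  funext fun k => (b k).symm.trans (h.red η a (fun k hk => (b k).trans (h0 k hk)) k)

theorem Jac.exists_mem (h : Jac g mov K₀) (c : K → ℂ) : ∃ c' ∈ Wg g mov, ∀ k ∈ K₀, c' k = c k :=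
  let ⟨η, a, b⟩ := h.ind c
  ⟨_, ⟨η, a, fun _ => rfl⟩, b⟩

/-- `Wg` is a graph over the coordinates `K₀` -/
noncomputable def Jac.equiv (h : Jac g mov K₀) : Wg g mov ≃ₗ[ℂ] (K₀ → ℂ) :=
  LinearEquiv.ofBijective (LinearMap.pi fun k : K₀ => LinearMap.proj k.1 ∘ₗ (Wg g mov).subtype)
    ⟨(injective_iff_map_eq_zero _).2 fun c e => Subtype.ext
      (h.eq_zero c.2 fun k hk => congrFun e ⟨k, hk⟩), fun c => by
      classical
      obtain ⟨c', a, b⟩ := h.exists_mem fun k => if hk : k ∈ K₀ then c ⟨k, hk⟩ else 0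
      exact ⟨⟨c', a⟩, funext fun k => (b k k.2).trans (dif_pos k.2)⟩⟩

theorem Jac.equiv_apply (h : Jac g mov K₀) (c : Wg g mov) (k : K₀) : h.equiv c k = c.1 k := rfl

theorem Jac.finrank_Wg [Fintype K₀] (h : Jac g mov K₀) : finrank ℂ (Wg g mov) = Fintype.card K₀ :=
  h.equiv.finrank_eq.trans (finrank_fintype_fun_eq_card ℂ)

theorem Jac.scale (h : Jac g mov K₀) {a : K → ℂ} {b : J → ℂ} (ha : ∀ k, a k ≠ 0)
    (hb : ∀ j, b j ≠ 0) : Jac (fun k j => g k j * b j / a k) mov K₀ := by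
  have e : ∀ (η : J → ℂ) k, ∑ j, g k j * b j / a k * η j = (∑ j, g k j * (b j * η j)) / a k :=
    fun η k => by
      rw [Finset.sum_div]
      exact Finset.sum_congr rfl fun j _ => by ring
  refine ⟨fun c => ?_, fun η h1 h2 k => ?_⟩
  · obtain ⟨η, h1, h2⟩ := h.ind fun k => c k * a k
    refine ⟨fun j => η j / b j, fun j hj => by simp [h1 j hj], fun k hk => ?_⟩
    simp only [e, mul_div_cancel₀ _ (hb _), h2 k hk, mul_div_cancel_right₀ _ (ha k)]
  · rw [e, h.red (fun j => b j * η j) (fun j hj => by simp [h1 j hj]) (fun k hk => by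
      simpa [e, ha k] using h2 k hk) k, zero_div]

/-- a lower semicontinuous family of subspaces whose dimension does not drop is closed -/
theorem mem_of_tendsto_rank {V α : Type} [NormedAddCommGroup V] [NormedSpace ℂ V]
    [FiniteDimensional ℂ V] {l : Filter α} [l.NeBot] {W : α → Submodule ℂ V} {W0 : Submodule ℂ V}
    (h1 : ∀ᶠ a in l, finrank ℂ (W a) ≤ finrank ℂ W0)
    (h2 : ∀ w ∈ W0, ∃ u : α → V, (∀ a, u a ∈ W a) ∧ Tendsto u l (𝓝 w)) {c : α → V} {c0 : V}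
    (h3 : ∀ᶠ a in l, c a ∈ W a) (h4 : Tendsto c l (𝓝 c0)) : c0 ∈ W0 := by
  by_contra h0
  obtain ⟨n, hn, ⟨b⟩⟩ : ∃ n, finrank ℂ W0 = n ∧ Nonempty (Basis (Fin n) ℂ W0) :=
    ⟨_, rfl, ⟨Module.finBasis _ _⟩⟩
  choose u a e using fun i => h2 _ (b i).2
  have li : LinearIndependent ℂ (Fin.cons c0 fun i => (b i).1 : Fin (n + 1) → V) :=
    linearIndependent_finCons.2 ⟨b.linearIndependent.map' _ (Submodule.ker_subtype _), fun e =>
      h0 ((Submodule.span_le.2 (by rintro _ ⟨i, rfl⟩; exact (b i).2)) e)⟩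
  have t : Tendsto (fun x => (Fin.cons (c x) fun i => u i x : Fin (n + 1) → V)) l
      (𝓝 (Fin.cons c0 fun i => (b i).1)) := tendsto_pi_nhds.2 (Fin.cases h4 e)
  obtain ⟨x, k1, k2, k3⟩ := ((t.eventually li.eventually).and (h1.and h3)).exists
  have := (finrank_span_eq_card k1).ge.trans (Submodule.finrank_mono (t := W x)
    (Submodule.span_le.2 (range_subset_iff.2 (Fin.cases k3 fun i => a i x))))
  rw [Fintype.card_fin] at this
  omega

/-- the spaces `Wg` form a closed family -/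
theorem Jac.mem_Wg [Finite K] (h : Jac g mov K₀) {α : Type} {l : Filter α} [l.NeBot]
    {g' : α → K → J → ℂ} (h1 : ∀ᶠ a in l, Jac (g' a) mov K₀)
    (h2 : ∀ k, ∀ j ∈ mov, Tendsto (fun a => g' a k j) l (𝓝 (g k j))) {c : α → K → ℂ} {c0 : K → ℂ}
    (h3 : ∀ᶠ a in l, c a ∈ Wg (g' a) mov) (h4 : Tendsto c l (𝓝 c0)) : c0 ∈ Wg g mov := by
  cases nonempty_fintype K
  cases nonempty_fintype K₀
  refine mem_of_tendsto_rank (h1.mono fun x a => (a.finrank_Wg.trans h.finrank_Wg.symm).le)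
    (fun w ⟨η, a, e⟩ => ⟨fun x k => ∑ j, g' x k j * η j, fun x => ⟨η, a, fun _ => rfl⟩,
      tendsto_pi_nhds.2 fun k => ?_⟩) h3 h4
  rw [← e k]
  refine tendsto_finsetSum _ fun j _ => ?_
  by_cases hj : j ∈ mov
  · exact (h2 k j hj).mul_const _
  · simp [a j hj]

end Jac

variable (Θ K Z) in
/-- The data at a point: values `tv` of the tests, coefficients `D` of the linearised equations,
values `tot` of the test factors of the equations. -/
structure PD where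
  tv : ∀ j, Θ j →ₗ[ℂ] ℂ
  D : K → Z → J → ℂ
  tot : K → Z → ℂ

namespace PD

variable (d : PD K Z Θ) (pw : Z → ∀ j, Θ j) (mov : Set J)

/-- the linearised equations -/
def dEq : (∀ j, Θ j →ₗ[ℂ] ℂ) →ₗ[ℂ] Fib Θ K Z where
  toFun Y := (fun j => kos (d.tv j) (Y j), fun k z => ∑ j, d.D k z j * Y j (pw z j))
  map_add' Y Y' := Prod.ext (funext₂ fun _ _ => kos_add _ _) (funext₂ fun k z => by
    simp [mul_add, Finset.sum_add_distrib])
  map_smul' c Y := Prod.ext (funext₂ fun _ _ => kos_smul _ _) (funext₂ fun k z => by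
    simp [Finset.mul_sum, mul_left_comm])

theorem dEq_fst (Y : ∀ j, Θ j →ₗ[ℂ] ℂ) (j : J) : (d.dEq pw Y).1 j = kos (d.tv j) (Y j) := rfl

theorem dEq_snd (Y : ∀ j, Θ j →ₗ[ℂ] ℂ) (k : K) (z : Z) :
    (d.dEq pw Y).2 k z = ∑ j, d.D k z j * Y j (pw z j) := rfl

/-- multiples of the test factors -/
def nrm : (K → ℂ) →ₗ[ℂ] Fib Θ K Z where
  toFun c := (0, fun k z => c k * d.tot k z)
  map_add' _ _ := Prod.ext (add_zero _).symm (funext₂ fun _ _ => add_mul _ _ _)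
  map_smul' _ _ := Prod.ext (smul_zero _).symm (funext₂ fun _ _ => mul_assoc _ _ _)

/-- the image of the linearised equations -/
def Im : Submodule ℂ (Fib Θ K Z) := (mv Θ (fun _ => ℂ) mov).map (d.dEq pw)

/-- compatibility of `D` and `tot`; `g` is the Jacobian matrix of the equations -/
def Rel (g : K → J → ℂ) : Prop :=
  ∀ k z, ∀ j ∈ mov, d.D k z j * d.tv j (pw z j) = g k j * d.tot k z

/-- regular data: the tests do not all vanish, the differentials of the equations `K₀` are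
independent and span all differentials -/
structure Reg (K₀ : Set K) (g : K → J → ℂ) : Prop where
  tv_ne : ∀ j ∈ mov, ∃ m, d.tv j m ≠ 0
  tot_ne : ∀ k, ∃ z, d.tot k z ≠ 0
  rel : d.Rel pw mov g
  jac : Jac g mov K₀

variable {d pw mov} {K₀ : Set K} {g : K → J → ℂ}

theorem mem_Im {κ : Fib Θ K Z} :
    κ ∈ d.Im pw mov ↔ ∃ Y, (∀ j ∉ mov, Y j = 0) ∧ d.dEq pw Y = κ := Iff.rfl

theorem Rel.dEq_tv (h : d.Rel pw mov g) {η : J → ℂ} (hη : ∀ j ∉ mov, η j = 0) :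
    d.dEq pw (fun j => η j • d.tv j) = d.nrm fun k => ∑ j, g k j * η j :=
  Prod.ext (funext₂ fun _ _ => kos_self _ _) (funext₂ fun k z => by
    change ∑ j, _ = (∑ j, _) * _
    rw [Finset.sum_mul]
    refine Finset.sum_congr rfl fun j _ => ?_
    by_cases hj : j ∈ mov
    · rw [LinearMap.smul_apply, smul_eq_mul, mul_left_comm, h k z j hj]; ring
    · simp [hη j hj])

theorem Rel.nrm_mem (h : d.Rel pw mov g) {c : K → ℂ} (hc : c ∈ Wg g mov) :
    d.nrm c ∈ d.Im pw mov := by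
  obtain ⟨η, a, b⟩ := hc
  exact ⟨_, fun j hj => by simp [a j hj], (h.dEq_tv a).trans (congrArg _ (funext b))⟩

theorem nrm_injective (h : ∀ k, ∃ z, d.tot k z ≠ 0) : Injective d.nrm := fun _ _ e =>
  funext fun k => let ⟨z, hz⟩ := h k
    mul_right_cancel₀ hz (congrFun (congrFun (congrArg Prod.snd e) k) z)

/-- fields with vanishing Koszul relations are multiples of the tests -/
theorem exists_eta (h : ∀ j ∈ mov, ∃ m, d.tv j m ≠ 0) {Y : ∀ j, Θ j →ₗ[ℂ] ℂ}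
    (hY : ∀ j ∉ mov, Y j = 0) (h0 : (d.dEq pw Y).1 = 0) :
    ∃ η : J → ℂ, (∀ j ∉ mov, η j = 0) ∧ Y = fun j => η j • d.tv j := by
  have : ∀ j, ∃ c : ℂ, (j ∉ mov → c = 0) ∧ Y j = c • d.tv j := fun j => by
    by_cases hj : j ∈ mov
    · obtain ⟨m, hm⟩ := h j hj
      exact ⟨_, fun a => absurd hj a, eq_of_kos hm fun m' => congrFun (congrFun h0 j) _⟩
    · exact ⟨0, fun _ => rfl, by simp [hY j hj]⟩
  choose η a b using this
  exact ⟨η, a, funext b⟩

theorem Rel.exists_nrm (h : d.Rel pw mov g) (h' : ∀ j ∈ mov, ∃ m, d.tv j m ≠ 0) {κ : Fib Θ K Z}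
    (hκ : κ ∈ d.Im pw mov) (h0 : κ.1 = 0) : ∃ c ∈ Wg g mov, d.nrm c = κ := by
  obtain ⟨Y, a, rfl⟩ := hκ
  obtain ⟨η, b, rfl⟩ := exists_eta h' a h0
  exact ⟨_, ⟨η, b, fun _ => rfl⟩, (h.dEq_tv b).symm⟩

/-- the redundant equations are determined by the others -/
theorem Reg.eq_zero (h : d.Reg pw mov K₀ g) {κ : Fib Θ K Z} (hκ : κ ∈ d.Im pw mov) (h0 : κ.1 = 0)
    (h1 : ∀ k ∈ K₀, κ.2 k = 0) : κ = 0 := by
  obtain ⟨c, a, rfl⟩ := h.rel.exists_nrm h.tv_ne hκ h0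
  rw [h.jac.eq_zero a fun k hk => ?_, map_zero]
  obtain ⟨z, hz⟩ := h.tot_ne k
  exact (mul_eq_zero.1 (congrFun (h1 k hk) z)).resolve_right hz

/-- normal form of the elements of the image -/
theorem Rel.exists_norm (h : d.Rel pw mov g) {m0 : ∀ j, Θ j} (h0 : ∀ j ∈ mov, d.tv j (m0 j) ≠ 0)
    {κ : Fib Θ K Z} (hκ : κ ∈ d.Im pw mov) : ∃ Y c, (∀ j ∉ mov, Y j = 0) ∧ (∀ j, Y j (m0 j) = 0) ∧
      c ∈ Wg g mov ∧ κ = d.dEq pw Y + d.nrm c := by
  obtain ⟨Y, a, rfl⟩ := mem_Im.1 hκ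
  have b : ∀ j ∉ mov, Y j (m0 j) / d.tv j (m0 j) = 0 := fun j hj => by simp [a j hj]
  refine ⟨Y - fun j => (Y j (m0 j) / d.tv j (m0 j)) • d.tv j, _, fun j hj => by simp [a j hj],
    fun j => ?_, ⟨_, b, fun _ => rfl⟩, by rw [← h.dEq_tv b, ← map_add, sub_add_cancel]⟩
  by_cases hj : j ∈ mov
  · simp [h0 j hj]
  · simp [a j hj]

theorem Reg.finrank_Im [Fintype K₀] [Fintype mov] [∀ j, FiniteDimensional ℂ (Θ j)]
    (h : d.Reg pw mov K₀ g) :
    finrank ℂ (d.Im pw mov) + Fintype.card mov = Fintype.card K₀ + ∑ j : mov, finrank ℂ (Θ j) := by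
  have := h.jac.equiv.symm.finiteDimensional
  have := (finrank_two (L := mov → ℂ) ((d.dEq pw).submoduleMap (mv Θ (fun _ => ℂ) mov))
    (LinearMap.fst ℂ _ _ ∘ₗ (d.Im pw mov).subtype)
    ((mvEquiv (fun _ => ℂ) mov).symm.toLinearMap ∘ₗ LinearMap.pi fun j : mov =>
      (LinearMap.proj j : (mov → ℂ) →ₗ[ℂ] ℂ).smulRight (d.tv j)) 
    (d.nrm.restrict fun _ => h.rel.nrm_mem)
    ((mvEquiv (fun _ => ℂ) mov).symm.injective.comp fun η η' e => funext fun j =>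
      let ⟨m, hm⟩ := h.tv_ne j j.2
      mul_right_cancel₀ hm (LinearMap.congr_fun (congrFun e j) m))
    (fun c c' e => Subtype.ext (nrm_injective h.tot_ne (congrArg Subtype.val e)))
    (fun ⟨_, Y, a, rfl⟩ => ⟨⟨Y, a⟩, rfl⟩) (fun Y => ⟨fun e => ?_, ?_⟩) fun κ =>
      ⟨fun e => let ⟨c, a, b⟩ := h.rel.exists_nrm h.tv_ne κ.2 e; ⟨⟨c, a⟩, Subtype.ext b⟩, ?_⟩).2
  · rw [finrank_mv, finrank_fintype_fun_eq_card, h.jac.finrank_Wg] at this
    simp only [finrank_self, mul_one] at this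
    exact this
  · obtain ⟨η, -, b⟩ := exists_eta (pw := pw) h.tv_ne Y.2 e
    exact ⟨fun j => η j, (LinearEquiv.symm_apply_eq _).2 (funext fun j => (congrFun b j).symm)⟩
  · rintro ⟨η, e⟩
    funext j m
    by_cases hj : j ∈ mov
    · exact (congrArg (kos _ · m) (congrFun ((LinearEquiv.symm_apply_eq _).1 e) ⟨j, hj⟩).symm).trans
        (kos_self _ _)
    · exact (congrArg (kos _ · m) (Y.2 j hj)).trans (kos_zero _)
  · rintro ⟨c, rfl⟩
    rfl

variable {α : Type} {l : Filter α}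

/-- convergence of the data -/
structure Tends (d : α → PD K Z Θ) (l : Filter α) (d0 : PD K Z Θ) (mov : Set J) : Prop where
  tv : ∀ j ∈ mov, ∀ m, Tendsto (fun a => (d a).tv j m) l (𝓝 (d0.tv j m))
  D : ∀ k z, ∀ j ∈ mov, Tendsto (fun a => (d a).D k z j) l (𝓝 (d0.D k z j))
  tot : ∀ k z, Tendsto (fun a => (d a).tot k z) l (𝓝 (d0.tot k z))

/-- limits of normal forms -/
theorem Tends.exists_lim [l.NeBot] {d : α → PD K Z Θ} {d0 : PD K Z Θ} (t : Tends d l d0 mov)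
    {m0 : ∀ j, Θ j} (h0 : ∀ j ∈ mov, d0.tv j (m0 j) ≠ 0) (h1 : ∀ k, ∃ z, d0.tot k z ≠ 0)
    {Y : α → ∀ j, Θ j →ₗ[ℂ] ℂ} {c : α → K → ℂ} {κ : Fib Θ K Z}
    (hY : ∀ᶠ a in l, (∀ j ∉ mov, Y a j = 0) ∧ ∀ j, Y a j (m0 j) = 0)
    (hκ : Tendsto (fun a => (d a).dEq pw (Y a) + (d a).nrm (c a)) l (𝓝 κ)) :
    ∃ Y0 c0, (∀ j ∉ mov, Y0 j = 0) ∧ (∀ j m, Tendsto (fun a => Y a j m) l (𝓝 (Y0 j m))) ∧
      Tendsto c l (𝓝 c0) ∧ κ = d0.dEq pw Y0 + d0.nrm c0 := by
  have k1 : ∀ j m, Tendsto (fun a => kos ((d a).tv j) (Y a j) m) l (𝓝 (κ.1 j m)) := fun j m => by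
    simpa [dEq_fst, nrm] using tendsto_pi_nhds.1 (tendsto_pi_nhds.1 hκ.fst_nhds j) m
  have k2 : ∀ j, ∃ Y0 : Θ j →ₗ[ℂ] ℂ, (j ∉ mov → Y0 = 0) ∧
      ∀ m, Tendsto (fun a => Y a j m) l (𝓝 (Y0 m)) := fun j => by
    by_cases hj : j ∈ mov
    · have a : ∀ m, Tendsto (fun a => Y a j m) l (𝓝 (κ.1 j (m, m0 j) / d0.tv j (m0 j))) :=
        fun m => ((k1 j (m, m0 j)).div (t.tv j hj _) (h0 j hj)).congr' (by
          filter_upwards [hY, (t.tv j hj _).eventually_ne (h0 j hj)] with a h2 h3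
          simp [kos, h2.2, h3])
      exact ⟨linearMapOfTendsto _ (fun a => Y a j) (tendsto_pi_nhds.2 a), fun b => absurd hj b, a⟩
    · exact ⟨0, fun _ => rfl, fun m => tendsto_const_nhds.congr' (hY.mono fun a h => by
        simp [h.1 j hj])⟩
  choose Y0 y1 y2 using k2
  have k3 : ∀ k z, Tendsto (fun a => ((d a).dEq pw (Y a)).2 k z) l (𝓝 ((d0.dEq pw Y0).2 k z)) :=
    fun k z => tendsto_finsetSum _ fun j _ => by
      by_cases hj : j ∈ mov
      · exact (t.D k z j hj).mul (y2 j _)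
      · exact tendsto_const_nhds.congr' (hY.mono fun a h => by simp [h.1 j hj, y1 j hj])
  have k4 : ∀ k z, Tendsto (fun a => c a k * (d a).tot k z) l
      (𝓝 (κ.2 k z - (d0.dEq pw Y0).2 k z)) := fun k z => by
    simpa [nrm] using (tendsto_pi_nhds.1 (tendsto_pi_nhds.1 hκ.snd_nhds k) z).sub (k3 k z)
  choose z hz using h1
  have k5 : ∀ k, Tendsto (fun a => c a k) l
      (𝓝 ((κ.2 k (z k) - (d0.dEq pw Y0).2 k (z k)) / d0.tot k (z k))) := fun k =>
    ((k4 k _).div (t.tot k _) (hz k)).congr' (((t.tot k _).eventually_ne (hz k)).mono fun a h =>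
      mul_div_cancel_right₀ _ h)
  refine ⟨Y0, _, y1, y2, tendsto_pi_nhds.2 k5, Prod.ext (funext₂ fun j m => ?_)
    (funext₂ fun k z' => eq_add_of_sub_eq' (tendsto_nhds_unique (k4 k z')
      ((k5 k).mul (t.tot k z'))))⟩
  refine (tendsto_nhds_unique (k1 j m) ?_).trans (add_zero (kos (d0.tv j) (Y0 j) m)).symm
  by_cases hj : j ∈ mov
  · exact ((t.tv j hj _).mul (y2 j _)).sub ((t.tv j hj _).mul (y2 j _))
  · exact tendsto_const_nhds.congr' (hY.mono fun a h => by simp [h.1 j hj, y1 j hj])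

/-- the image of the linearised equations is a closed family -/
theorem Tends.mem_Im [Finite K] [l.NeBot] {d : α → PD K Z Θ} {d0 : PD K Z Θ} (t : Tends d l d0 mov)
    (h : d0.Reg pw mov K₀ g) {g' : α → K → J → ℂ} (hr : ∀ᶠ a in l, (d a).Reg pw mov K₀ (g' a))
    (hg : ∀ k, ∀ j ∈ mov, Tendsto (fun a => g' a k j) l (𝓝 (g k j))) {κ : α → Fib Θ K Z}
    {κ0 : Fib Θ K Z} (h1 : ∀ᶠ a in l, κ a ∈ (d a).Im pw mov) (h2 : Tendsto κ l (𝓝 κ0)) :
    κ0 ∈ d0.Im pw mov := by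
  classical
  choose m hm using h.tv_ne
  have h0 : ∀ j ∈ mov, d0.tv j (if hj : j ∈ mov then m j hj else 0) ≠ 0 := fun j hj => by
    rw [dif_pos hj]; exact hm j hj
  have h3 : ∀ᶠ a in l, ∀ j ∈ mov, (d a).tv j (if hj : j ∈ mov then m j hj else 0) ≠ 0 :=
    (eventually_all_finite (toFinite mov)).2 fun j hj => (t.tv j hj _).eventually_ne (h0 j hj)
  obtain ⟨Y, hY⟩ := ((hr.and (h1.and h3)).mono fun a ⟨b, c, e⟩ => b.rel.exists_norm e c).choice
  obtain ⟨c, hc⟩ := hY.choice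
  obtain ⟨Y0, c0, a, -, b, rfl⟩ := t.exists_lim h0 h.tot_ne (hc.mono fun a b => ⟨b.1, b.2.1⟩)
    (h2.congr' (hc.mono fun a b => b.2.2.2))
  exact add_mem ⟨Y0, a, rfl⟩ (h.rel.nrm_mem (h.jac.mem_Wg (hr.mono fun _ b => b.jac) hg
    (hc.mono fun _ b => b.2.2.1) b))

end PD

end Vale.Agent.P269.Vir
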